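import Vale.Agent.P321.Trace
import Mathlib.Data.Nat.Choose.Multinomial
import Mathlib.Data.Sym.Card
import Mathlib.Analysis.SpecialFunctions.Exp
import Mathlib.Tactic.FieldSimp

/-! Traces of `(01)^N` and of `(01)^a 1 (01)^c`. -/

namespace Vale.Agent.P321

open Finset

variable {q : ℝ}

/-- `(01)^N`. -/
def altS : ℕ → List Bool
  | 0 => []
  | N + 1 => false :: true :: altS N

lemma altS_length : ∀ N, (altS N).length = 2 * N
  | 0 => rfl
  | N + 1 => by simp [altS, altS_length N]; ring

lemma altS_add : ∀ a c, altS (a + c) = altS a ++ altS c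
  | 0, c => by simp [altS]
  | a + 1, c => by rw [Nat.add_right_comm]; simp [altS, altS_add a c]

/-- The least number of periods containing `t` as a subsequence. -/
def mper : List Bool → ℕ
  | [] => 0
  | false :: true :: r => 1 + mper r
  | _ :: r => 1 + mper r

/-- Number of ways to write `r` as an ordered sum of `k` nonnegative integers. -/
def tc (k : ℕ) (r : ℤ) : ℝ := if 0 ≤ r then (Nat.multichoose k r.toNat : ℝ) else 0

lemma tc_of_neg {k : ℕ} {r : ℤ} (h : r < 0) : tc k r = 0 := if_neg (not_le.2 h)

lemma tc_natCast (k r : ℕ) : tc k (r : ℤ) = Nat.multichoose k r := by simp [tc]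

lemma tc_nonneg (k : ℕ) (r : ℤ) : 0 ≤ tc k r := by unfold tc; split_ifs <;> simp

lemma tc_succ (k : ℕ) (r : ℤ) : tc (k + 1) r = tc (k + 1) (r - 1) + tc k r := by
  rcases lt_trichotomy r 0 with h | h | h
  · simp [tc_of_neg h, tc_of_neg (show r - 1 < 0 by omega)]
  · subst h
    rw [tc_of_neg (show (0:ℤ) - 1 < 0 by omega)]
    simp [tc]
  · obtain ⟨n, rfl⟩ : ∃ n : ℕ, r = ((n + 1 : ℕ) : ℤ) := ⟨r.toNat - 1, by omega⟩
    rw [show ((n + 1 : ℕ) : ℤ) - 1 = (n : ℤ) by push_cast; ring, tc_natCast, tc_natCast,
      tc_natCast, Nat.multichoose_succ_succ]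
    push_cast; ring

lemma mper_true (r : List Bool) : mper (true :: r) = 1 + mper r := rfl

lemma mper_false_true (r : List Bool) : mper (false :: true :: r) = 1 + mper r := rfl

lemma mper_false_false (r : List Bool) : mper (false :: false :: r) = 1 + mper (false :: r) := rfl

lemma mper_pos : ∀ (b : Bool) (r : List Bool), 1 ≤ mper (b :: r)
  | true, r => by rw [mper_true]; omega
  | false, [] => le_rfl
  | false, true :: r => by rw [mper_false_true]; omega
  | false, false :: r => by rw [mper_false_false]; omega

lemma tp_alt (hq : q ≠ 0) : ∀ (N : ℕ) (t : List Bool), traceProb q (altS N) t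
    = q ^ (2 * N) * ((1 - q) / q) ^ t.length * tc (t.length + 1) ((N : ℤ) - mper t)
  | 0, t => by
    cases t with
    | nil => simp [altS, mper, tc, Nat.multichoose_zero_right]
    | cons b r =>
      have := mper_pos b r
      rw [tc_of_neg (by push_cast; omega)]; simp [altS]
  | N + 1, t => by
    have ih := tp_alt hq N
    simp only [altS]
    match t with
    | [] =>
      rw [tp_cons_nil, tp_cons_nil, ih]
      simp [mper, tc, Nat.multichoose_one, show (0:ℤ) ≤ (N:ℤ) + 1 by omega]; ring
    | true :: r =>
      rw [tp_cons_cons, tp_cons_cons, ih, ih, mper_true]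
      simp only [Bool.false_eq_true, if_false, if_true, add_zero, List.length_cons]
      rw [tc_succ (r.length + 1) (((N + 1 : ℕ) : ℤ) - ((1 + mper r : ℕ) : ℤ))]
      push_cast
      rw [show (N:ℤ) + 1 - (1 + (mper r : ℤ)) - 1 = N - (1 + mper r) by ring,
        show (N:ℤ) + 1 - (1 + (mper r : ℤ)) = N - mper r by ring]
      set w := (1 - q) / q with hw
      rw [show (1:ℝ) - q = q * w by rw [hw]; field_simp]; ring
    | [false] =>
      rw [tp_cons_cons, tp_cons_cons, tp_cons_nil, ih, ih]
      simp only [Bool.true_eq_false, if_false, if_true, add_zero, List.length_cons,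
        List.length_nil, mper]
      rw [tc_succ 1 (((N + 1 : ℕ) : ℤ) - ((1 : ℕ) : ℤ))]
      push_cast
      rw [show (N:ℤ) + 1 - 1 - 1 = N - 1 by ring, show (N:ℤ) + 1 - 1 = N by ring]
      simp only [Nat.cast_zero, sub_zero, zero_add, pow_zero, mul_one, pow_one]
      set w := (1 - q) / q with hw
      rw [show (1:ℝ) - q = q * w by rw [hw]; field_simp]; ring
    | false :: false :: r =>
      rw [tp_cons_cons, tp_cons_cons, tp_cons_cons, ih, ih, mper_false_false]
      simp only [Bool.true_eq_false, if_false, if_true, add_zero, List.length_cons]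
      rw [tc_succ (r.length + 2) (((N + 1 : ℕ) : ℤ) - ((1 + mper (false :: r) : ℕ) : ℤ))]
      push_cast
      rw [show (N:ℤ) + 1 - (1 + (mper (false :: r) : ℤ)) - 1 = N - (1 + mper (false :: r)) by ring,
        show (N:ℤ) + 1 - (1 + (mper (false :: r) : ℤ)) = N - mper (false :: r) by ring]
      set w := (1 - q) / q with hw
      rw [show (1:ℝ) - q = q * w by rw [hw]; field_simp]; ring
    | false :: true :: r =>
      rw [tp_cons_cons, tp_cons_cons, tp_cons_cons, ih, ih, ih, mper_false_true, mper_true]
      simp only [Bool.true_eq_false, if_false, if_true, add_zero, List.length_cons]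
      rw [tc_succ (r.length + 2) (((N + 1 : ℕ) : ℤ) - ((1 + mper r : ℕ) : ℤ))]
      push_cast
      rw [show (N:ℤ) + 1 - (1 + (mper r : ℤ)) - 1 = N - (1 + mper r) by ring,
        show (N:ℤ) + 1 - (1 + (mper r : ℤ)) = N - mper r by ring,
        tc_succ (r.length + 1) ((N : ℤ) - mper r),
        show (N:ℤ) - mper r - 1 = N - (1 + mper r) by ring]
      set w := (1 - q) / q with hw
      rw [show (1:ℝ) - q = q * w by rw [hw]; field_simp]; ring

/-- `(01)^a 1 (01)^c`. -/
def insS (a c : ℕ) : List Bool := altS a ++ true :: altS c

lemma insS_length (a c : ℕ) : (insS a c).length = 2 * (a + c) + 1 := by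
  simp [insS, altS_length]; ring

lemma tp_insS (a c : ℕ) (t : List Bool) : traceProb q (insS a c) t
    = q * traceProb q (altS (a + c)) t + (1 - q) * ∑ i ∈ range t.length,
        if t[i]? = some true then
          traceProb q (altS a) (t.take i) * traceProb q (altS c) (t.drop (i + 1)) else 0 := by
  rw [insS, tp_append, altS_add, tp_append, Finset.mul_sum, Finset.mul_sum,
    Finset.sum_range_succ _ t.length, Finset.sum_range_succ _ t.length,
    add_comm (∑ x ∈ range t.length, q * _), add_assoc, ← Finset.sum_add_distrib, add_comm]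
  congr 1
  · simp [tp_cons]; ring
  · refine Finset.sum_congr rfl fun i _ => ?_
    rw [tp_cons, List.head?_drop, List.tail_drop]
    split_ifs <;> ring

lemma tp_insS_le (h0 : 0 < q) (h1 : q ≤ 1) (a c : ℕ) (t : List Bool) :
    traceProb q (insS a c) t ≤ q⁻¹ * traceProb q (altS (a + c + 1)) t := by
  have hn := fun x t => tp_nonneg h0.le h1 (q := q) x t
  rw [show altS (a + c + 1) = altS a ++ false :: true :: altS c by
    rw [Nat.add_assoc, altS_add]; rfl, insS, tp_append, tp_append, Finset.mul_sum]
  refine Finset.sum_le_sum fun i _ => ?_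
  rw [le_inv_mul_iff₀ h0, mul_left_comm]
  refine mul_le_mul_of_nonneg_left ?_ (hn _ _)
  rw [tp_cons false]
  exact le_add_of_nonneg_right (by split_ifs <;> first | exact mul_nonneg (by linarith) (hn _ _) | exact le_rfl)

/-- Splitting the period count at an inserted `1`. -/
lemma mper_split : ∀ (u v : List Bool),
    mper (u ++ true :: v) + (if u.getLast? = some false then 1 else 0) = mper u + 1 + mper v
  | [], v => by simp [mper]
  | true :: r, v => by
    have := mper_split r v
    cases r with
    | nil => simp [mper_true, mper]; omega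
    | cons b r =>
      rw [List.cons_append, mper_true, mper_true, List.getLast?_cons_cons]
      omega
  | [false], v => by simp [mper]; omega
  | false :: false :: r, v => by
    have := mper_split (false :: r) v
    rw [List.cons_append, List.cons_append, mper_false_false, mper_false_false,
      List.getLast?_cons_cons]
    rw [List.cons_append] at this
    omega
  | false :: true :: r, v => by
    have := mper_split r v
    cases r with
    | nil => simp [mper]; omega
    | cons b r =>
      rw [List.cons_append, List.cons_append, mper_false_true, mper_false_true,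
        List.getLast?_cons_cons, List.getLast?_cons_cons]
      omega

lemma mper_cons_le : ∀ (b : Bool) (r : List Bool), mper (b :: r) ≤ 1 + mper r
  | true, r => le_rfl
  | false, [] => le_rfl
  | false, false :: r => le_rfl
  | false, true :: r => by rw [mper_false_true, mper_true]; omega

lemma mper_append_le : ∀ (u v : List Bool), mper (u ++ v) ≤ mper u + mper v
  | [], v => by simp
  | true :: r, v => by
    have := mper_append_le r v
    rw [List.cons_append, mper_true, mper_true]; omega
  | [false], v => mper_cons_le false v
  | false :: false :: r, v => by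
    have := mper_append_le (false :: r) v
    rw [List.cons_append, List.cons_append, mper_false_false, mper_false_false]
    rw [List.cons_append] at this; omega
  | false :: true :: r, v => by
    have := mper_append_le r v
    rw [List.cons_append, List.cons_append, mper_false_true, mper_false_true]; omega

/-- Decoding a string from its first bit and its change pattern. -/
def dec : Bool → List Bool → List Bool
  | b, [] => [b]
  | b, x :: s => b :: dec (xor b x) s

/-- Parity. -/
def par : List Bool → Bool
  | [] => false
  | x :: s => xor x (par s)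

/-- Number of `true`. -/
def cnt : List Bool → ℕ
  | [] => 0
  | x :: s => (if x then 1 else 0) + cnt s

lemma cnt_le : ∀ s, cnt s ≤ s.length
  | [] => le_rfl
  | x :: s => by simp [cnt]; have := cnt_le s; split_ifs <;> omega

lemma cnt_append : ∀ u v, cnt (u ++ v) = cnt u + cnt v
  | [], v => by simp [cnt]
  | x :: u, v => by simp [cnt, cnt_append u v]; omega

lemma par_eq : ∀ s, par s = decide (cnt s % 2 = 1)
  | [] => rfl
  | x :: s => by
    cases x <;> simp [par, cnt, par_eq s]
    rcases Nat.mod_two_eq_zero_or_one (cnt s) with h | h <;> simp [h, Nat.add_mod]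

lemma dec_length : ∀ b s, (dec b s).length = s.length + 1
  | b, [] => rfl
  | b, x :: s => by simp [dec, dec_length]

lemma dec_ne_nil : ∀ b s, ∃ r, dec b s = b :: r
  | b, [] => ⟨[], rfl⟩
  | b, x :: s => ⟨_, rfl⟩

lemma dec_take : ∀ b s i, (dec b s).take (i + 1) = dec b (s.take i)
  | b, [], i => by simp [dec]
  | b, x :: s, 0 => by simp [dec]
  | b, x :: s, i + 1 => by simp [dec, dec_take]

lemma dec_getElem : ∀ b s i, i ≤ s.length → (dec b s)[i]? = some (xor b (par (s.take i)))
  | b, [], i, h => by simp at h; subst h; simp [dec, par]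
  | b, x :: s, 0, _ => by simp [dec, par]
  | b, x :: s, i + 1, h => by
    simp [dec, par, dec_getElem (xor b x) s i (by simpa using h)]

lemma dec_getLast : ∀ b s, (dec b s).getLast? = some (xor b (par s))
  | b, [] => by simp [dec, par]
  | b, x :: s => by
    obtain ⟨r, hr⟩ := dec_ne_nil (xor b x) s
    rw [dec, hr, List.getLast?_cons_cons, ← hr, dec_getLast]
    simp [par]

/-- `2 * mper` in terms of the change pattern. -/
lemma mper_dec : ∀ b s,
    mper (dec b s) + (cnt s + if b then 0 else 1) / 2 = s.length + 1
  | b, [] => by cases b <;> simp [dec, mper, cnt]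
  | b, x :: s => by
    have := mper_dec (xor b x) s
    obtain ⟨r, hr⟩ := dec_ne_nil (xor b x) s
    cases b <;> cases x
    all_goals
      simp only [dec, Bool.xor_false, Bool.xor_true, Bool.false_xor, Bool.true_xor, Bool.not_false,
        Bool.not_true] at hr this ⊢
      rw [hr] at this ⊢
      simp only [mper_false_false, mper_false_true, mper_true, cnt, List.length_cons,
        Bool.false_eq_true, if_false, if_true] at this ⊢
      omega

lemma sum_strings_dec {M : Type*} [AddCommMonoid M] : ∀ (n : ℕ) (f : List Bool → M),
    ∑ t ∈ strings (n + 1), f t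
      = ∑ s ∈ strings n, f (dec true s) + ∑ s ∈ strings n, f (dec false s)
  | 0, f => by simp [strings, dec, add_comm]
  | n + 1, f => by
    rw [sum_strings_succ, sum_strings_dec n, sum_strings_dec n, sum_strings_succ,
      sum_strings_succ n (fun s => f (dec false s))]
    simp [dec]; abel

/-- Number of adjacent unequal pairs. -/
def nD : List Bool → ℕ
  | a :: b :: r => (if a = b then 0 else 1) + nD (b :: r)
  | _ => 0

/-- Number of adjacent equal pairs. -/
def nE : List Bool → ℕ
  | a :: b :: r => (if a = b then 1 else 0) + nE (b :: r)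
  | _ => 0

lemma nD_dec : ∀ b s, nD (dec b s) = cnt s ∧ nE (dec b s) + cnt s = s.length
  | b, [] => by simp [dec, nD, nE, cnt]
  | b, x :: s => by
    obtain ⟨h1, h2⟩ := nD_dec (xor b x) s
    obtain ⟨r, hr⟩ := dec_ne_nil (xor b x) s
    rw [hr] at h1 h2
    rw [dec, hr]
    cases b <;> cases x <;> simp [nD, nE, cnt] at h1 h2 ⊢ <;> omega

lemma nD_append : ∀ u v, nD u + nD v ≤ nD (u ++ v) ∧ nE u + nE v ≤ nE (u ++ v)
  | [], v => by simp [nD, nE]
  | [a], v => by cases v <;> simp [nD, nE]
  | a :: b :: r, v => by
    obtain ⟨h1, h2⟩ := nD_append (b :: r) v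
    simp only [List.cons_append] at h1 h2
    simp only [List.cons_append, nD, nE]
    omega

end Vale.Agent.P321
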