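import Vale.Agent.P321.Fourier
import Mathlib.Analysis.Complex.ExponentialBounds

/-! Martingale estimates for sums of characters of a random change pattern. -/

namespace Vale.Agent.P321

attribute [local fun_prop] continuous_ee

open Finset MeasureTheory

/-- Bernoulli weight of a pattern. -/
def wt (ρ : ℝ) : List Bool → ℝ
  | [] => 1
  | x :: s => (if x then ρ else 1 - ρ) * wt ρ s

lemma wt_nonneg {ρ : ℝ} (h0 : 0 ≤ ρ) (h1 : ρ ≤ 1) : ∀ s, 0 ≤ wt ρ s
  | [] => zero_le_one
  | true :: s => by simpa [wt] using mul_nonneg h0 (wt_nonneg h0 h1 s)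
  | false :: s => by simpa [wt] using mul_nonneg (sub_nonneg.2 h1) (wt_nonneg h0 h1 s)

lemma wt_eq {ρ : ℝ} : ∀ s, wt ρ s = ρ ^ cnt s * (1 - ρ) ^ (s.length - cnt s)
  | [] => by simp [wt, cnt]
  | true :: s => by
    simp [wt, cnt, wt_eq s, Nat.add_comm 1 (cnt s), pow_succ]; ring
  | false :: s => by
    have := cnt_le s
    simp [wt, cnt, wt_eq s, Nat.sub_add_comm this, pow_succ]; ring

lemma wt_append {ρ : ℝ} : ∀ u v, wt ρ (u ++ v) = wt ρ u * wt ρ v
  | [], v => by simp [wt]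
  | x :: u, v => by simp [wt, wt_append u v, mul_assoc]

lemma sum_wt {ρ : ℝ} : ∀ n, ∑ s ∈ strings n, wt ρ s = 1
  | 0 => by simp [strings, wt]
  | n + 1 => by
    rw [sum_strings_succ]
    simp only [wt, if_true, Bool.false_eq_true, if_false, ← Finset.mul_sum, sum_wt n]; ring

/-- `∑_{i} A i · (∏_{l<i} w (s_l)) · v (s_i)`. -/
def lin (A : ℕ → ℂ) (w v : Bool → ℂ) : List Bool → ℂ
  | [] => 0
  | x :: s => A 0 * v x + w x * lin (fun i => A (i + 1)) w v s

/-- The full product of `w`. -/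
def wprod (w : Bool → ℂ) : List Bool → ℂ
  | [] => 1
  | x :: s => w x * wprod w s

lemma norm_wprod {w : Bool → ℂ} (hw : ∀ b, ‖w b‖ = 1) : ∀ s, ‖wprod w s‖ = 1
  | [] => norm_one
  | x :: s => by simp [wprod, hw, norm_wprod hw s]

lemma lin_add (w v1 v2 : Bool → ℂ) : ∀ (A : ℕ → ℂ) s,
    lin A w (fun b => v1 b + v2 b) s = lin A w v1 s + lin A w v2 s
  | A, [] => by simp [lin]
  | A, x :: s => by simp [lin, lin_add w v1 v2 _ s]; ring

lemma lin_smul (w v : Bool → ℂ) (c : ℂ) : ∀ (A : ℕ → ℂ) s,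
    lin A w (fun b => c * v b) s = c * lin A w v s
  | A, [] => by simp [lin]
  | A, x :: s => by simp [lin, lin_smul w v c _ s]; ring

lemma lin_smul_left (w v : Bool → ℂ) (c : ℂ) : ∀ (A : ℕ → ℂ) s,
    lin (fun i => c * A i) w v s = c * lin A w v s
  | A, [] => by simp [lin]
  | A, x :: s => by simp [lin, lin_smul_left w v c _ s]; ring

lemma norm_lin_le {w v : Bool → ℂ} {M V : ℝ} (hw : ∀ b, ‖w b‖ = 1) (hv : ∀ b, ‖v b‖ ≤ V) :
    ∀ (A : ℕ → ℂ) s, (∀ i < s.length, ‖A i‖ ≤ M) → ‖lin A w v s‖ ≤ s.length * (M * V)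
  | A, [], _ => by simp [lin]
  | A, x :: s, h => by
    have h1 := norm_lin_le hw hv (fun i => A (i + 1)) s fun i hi => h (i + 1) (by simp; omega)
    have h0 := h 0 (by simp)
    simp only [lin, List.length_cons]
    refine (norm_add_le _ _).trans ?_
    rw [norm_mul, norm_mul, hw, one_mul]
    push_cast
    have : ‖A 0‖ * ‖v x‖ ≤ M * V :=
      mul_le_mul h0 (hv x) (norm_nonneg _) ((norm_nonneg _).trans h0)
    linarith

lemma lin_geo (w : Bool → ℂ) (f1 f0 : ℂ) : ∀ s : List Bool,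
    lin (fun i => f1 ^ i * f0 ^ (s.length - 1 - i)) w (fun b => f1 * w b - f0) s
      = f1 ^ s.length * wprod w s - f0 ^ s.length
  | [] => by simp [lin, wprod]
  | x :: s => by
    have := lin_geo w f1 f0 s
    simp only [lin, wprod, List.length_cons, pow_zero, one_mul]
    have e : (fun i => f1 ^ (i + 1) * f0 ^ (s.length + 1 - 1 - (i + 1)))
        = fun i => f1 * (f1 ^ i * f0 ^ (s.length - 1 - i)) := by
      funext i
      rw [show s.length + 1 - 1 - (i + 1) = s.length - 1 - i by omega, pow_succ']; ring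
    rw [e, lin_smul_left, this, show s.length + 1 - 1 - 0 = s.length by omega]
    ring

/-- Mean of a function of one step. -/
def mean1 (ρ : ℝ) (v : Bool → ℂ) : ℂ := (ρ : ℂ) * v true + (1 - ρ : ℂ) * v false

lemma sum_lin_zero {ρ : ℝ} {w v : Bool → ℂ} (hv : mean1 ρ v = 0) : ∀ (n : ℕ) (A : ℕ → ℂ),
    ∑ s ∈ strings n, (wt ρ s : ℂ) * lin A w v s = 0
  | 0, A => by simp [strings, lin]
  | n + 1, A => by
    rw [sum_strings_succ]
    have h := sum_lin_zero hv (w := w) n (fun i => A (i + 1))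
    have hs : ∑ s ∈ strings n, (wt ρ s : ℂ) = 1 := by exact_mod_cast congrArg ((↑·) : ℝ → ℂ) (sum_wt n)
    have ex : ∀ x, ∑ s ∈ strings n, (wt ρ (x :: s) : ℂ) * lin A w v (x :: s)
        = ((if x then ρ else 1 - ρ : ℝ) : ℂ) * (A 0 * v x) := by
      intro x
      set p : ℝ := if x then ρ else 1 - ρ
      calc ∑ s ∈ strings n, (wt ρ (x :: s) : ℂ) * lin A w v (x :: s)
          = ∑ s ∈ strings n, ((p : ℂ) * (A 0 * v x) * (wt ρ s : ℂ)
              + (p : ℂ) * w x * ((wt ρ s : ℂ) * lin (fun i => A (i + 1)) w v s)) := by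
            refine Finset.sum_congr rfl fun s _ => ?_
            simp only [wt, lin, Complex.ofReal_mul, p]; ring
        _ = _ := by
            rw [Finset.sum_add_distrib, ← Finset.mul_sum, ← Finset.mul_sum, hs, h, mul_zero,
              mul_one, add_zero]
    rw [ex, ex]
    unfold mean1 at hv
    simp only [if_true, Bool.false_eq_true, if_false]
    push_cast
    linear_combination A 0 * hv

lemma mart_bound {ρ : ℝ} (h0 : 0 ≤ ρ) (h1 : ρ ≤ 1) {w v : Bool → ℂ} {M V : ℝ}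
    (hw : ∀ b, ‖w b‖ = 1) (hv : mean1 ρ v = 0) (hV : ∀ b, ‖v b‖ ≤ V) :
    ∀ (n : ℕ) (A : ℕ → ℂ), (∀ i < n, ‖A i‖ ≤ M) →
      ∑ s ∈ strings n, wt ρ s * ‖lin A w v s‖ ^ 2 ≤ n * (M * V) ^ 2
  | 0, A, _ => by simp [strings, lin]
  | n + 1, A, hA => by
    have ih := mart_bound h0 h1 hw hv hV n (fun i => A (i + 1)) fun i hi => hA (i + 1) (by omega)
    have hz := sum_lin_zero hv (w := w) n (fun i => A (i + 1))
    have h00 := hA 0 (by omega)
    have hA0 : ∀ x, ‖A 0 * v x‖ ^ 2 ≤ (M * V) ^ 2 := fun x => by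
      rw [norm_mul]
      exact pow_le_pow_left₀ (by positivity)
        (mul_le_mul h00 (hV x) (norm_nonneg _) ((norm_nonneg _).trans h00)) 2
    have expand : ∀ x, ∑ s ∈ strings n, wt ρ s * ‖lin A w v (x :: s)‖ ^ 2
        = ‖A 0 * v x‖ ^ 2 + ∑ s ∈ strings n, wt ρ s * ‖lin (fun i => A (i + 1)) w v s‖ ^ 2 := by
      intro x
      have : ∀ s, wt ρ s * ‖lin A w v (x :: s)‖ ^ 2 = wt ρ s * ‖A 0 * v x‖ ^ 2
          + (wt ρ s * ‖lin (fun i => A (i + 1)) w v s‖ ^ 2
          + 2 * ((starRingEnd ℂ) (A 0 * v x) * w x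
              * ((wt ρ s : ℂ) * lin (fun i => A (i + 1)) w v s)).re) := by
        intro s
        simp only [lin]
        set a := A 0 * v x
        set S := lin (fun i => A (i + 1)) w v s
        have key : ‖a + w x * S‖ ^ 2 = ‖a‖ ^ 2 + ‖S‖ ^ 2 + 2 * ((starRingEnd ℂ) a * w x * S).re := by
          have e1 : ‖w x * S‖ ^ 2 = ‖S‖ ^ 2 := by rw [norm_mul, hw, one_mul]
          rw [← e1]
          simp only [Complex.sq_norm, Complex.normSq_apply, Complex.add_re, Complex.add_im,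
            Complex.mul_re, Complex.mul_im, Complex.conj_re, Complex.conj_im]
          ring
        rw [key, show (starRingEnd ℂ) a * w x * ((wt ρ s : ℂ) * S)
          = (wt ρ s : ℂ) * ((starRingEnd ℂ) a * w x * S) by ring, Complex.re_ofReal_mul]
        ring
      simp_rw [this]
      rw [Finset.sum_add_distrib, Finset.sum_add_distrib, ← Finset.sum_mul, sum_wt, one_mul,
        ← Finset.mul_sum, ← Complex.re_sum, ← Finset.mul_sum, hz, mul_zero, Complex.zero_re,
        mul_zero, add_zero]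
    rw [sum_strings_succ]
    simp only [wt, if_true, Bool.false_eq_true, if_false, mul_assoc, ← Finset.mul_sum]
    rw [expand, expand]
    push_cast
    nlinarith [mul_le_mul_of_nonneg_left (hA0 true) h0,
      mul_le_mul_of_nonneg_left (hA0 false) (sub_nonneg.2 h1), ih]

lemma sq_add_three (a b c : ℂ) :
    ‖a + b + c‖ ^ 2 ≤ 3 * (‖a‖ ^ 2 + ‖b‖ ^ 2 + ‖c‖ ^ 2) := by
  have h := pow_le_pow_left₀ (norm_nonneg _) (norm_add₃_le (a := a) (b := b) (c := c)) 2
  nlinarith [sq_nonneg (‖a‖ - ‖b‖), sq_nonneg (‖b‖ - ‖c‖), sq_nonneg (‖a‖ - ‖c‖)]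

/-- Second moment of a block of the character sum. -/
lemma block_bound {ρ : ℝ} (h0 : 0 ≤ ρ) (h1 : ρ ≤ 1) {w v : Bool → ℂ} {M V K θ : ℝ}
    (hw : ∀ b, ‖w b‖ = 1) (hV : ∀ b, ‖v b‖ ≤ V) (f1 f0 c : ℂ) (n : ℕ)
    (hf1 : ‖f1‖ ≤ 1) (hA : ∀ i < n, ‖c * (f1 ^ i * f0 ^ (n - 1 - i))‖ ≤ M)
    (he1 : ‖c‖ * ‖f1‖ ^ n ≤ M) (he0 : ‖c‖ * ‖f0‖ ^ n ≤ M) (hK : 0 ≤ K)
    (hD1 : |θ| ≤ K * ‖f1 * mean1 ρ w - f0‖)
    (hD2 : ∀ b, ‖w b - mean1 ρ w‖ ≤ K * ‖f1 * mean1 ρ w - f0‖) :
    θ ^ 2 * ∑ s ∈ strings n,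
        wt ρ s * ‖c * lin (fun i => f1 ^ i * f0 ^ (n - 1 - i)) w v s‖ ^ 2
      ≤ 12 * (1 + K) ^ 4 * (1 + V) ^ 2 * M ^ 2 * (1 + n * θ ^ 2) := by
  have hV0 : 0 ≤ V := (norm_nonneg _).trans (hV true)
  have hM0 : 0 ≤ M := (by positivity : 0 ≤ ‖c‖ * ‖f1‖ ^ n).trans he1
  set κ := mean1 ρ w
  set D := f1 * κ - f0
  set A : ℕ → ℂ := fun i => f1 ^ i * f0 ^ (n - 1 - i)
  rcases eq_or_ne θ 0 with rfl | hθ
  · simp only [ne_eq, OfNat.ofNat_ne_zero, not_false_eq_true, zero_pow, zero_mul]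
    positivity
  have hD : 0 < ‖D‖ := by
    by_contra h
    have : ‖D‖ = 0 := le_antisymm (not_lt.1 h) (norm_nonneg _)
    rw [this, mul_zero] at hD1
    exact hθ (abs_nonpos_iff.1 hD1)
  have hD' : D ≠ 0 := norm_pos_iff.1 hD
  set vb := mean1 ρ v
  have hvb : ‖vb‖ ≤ V := by
    refine (norm_add_le _ _).trans ?_
    rw [norm_mul, norm_mul, ← Complex.ofReal_one, ← Complex.ofReal_sub, Complex.norm_real,
      Complex.norm_real, Real.norm_eq_abs, Real.norm_eq_abs, abs_of_nonneg h0,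
      abs_of_nonneg (sub_nonneg.2 h1)]
    nlinarith [hV true, hV false]
  set v1 : Bool → ℂ := fun b => v b - vb
  set w1 : Bool → ℂ := fun b => w b - κ
  have hv1 : mean1 ρ v1 = 0 := by simp only [v1, mean1, vb]; ring
  have hw1 : mean1 ρ w1 = 0 := by simp only [w1, mean1, κ]; ring
  have hv1n : ∀ b, ‖v1 b‖ ≤ 2 * V := fun b =>
    (norm_sub_le _ _).trans (by linarith [hV b, hvb])
  have decomp : ∀ s ∈ strings n, c * lin A w v s = c * lin A w v1 s
      + (c * (vb / D) * (f1 ^ n * wprod w s - f0 ^ n))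
      + (-(vb / D * f1) * (c * lin A w w1 s)) := by
    intro s hs
    have hl := mem_strings.1 hs
    have g := lin_geo w f1 f0 s
    rw [hl] at g
    have e1 : (fun b => f1 * w b - f0) = fun b => f1 * w1 b + D * 1 := by
      funext b; simp only [w1, D]; ring
    rw [show (fun i => f1 ^ i * f0 ^ (n - 1 - i)) = A from rfl, e1, lin_add, lin_smul,
      lin_smul] at g
    have e2 : v = fun b => v1 b + vb * 1 := by funext b; simp [v1]
    conv_lhs => rw [e2, lin_add, lin_smul]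
    field_simp
    linear_combination c * vb * g
  have hwn := norm_wprod hw
  have hMn : ∀ u : Bool → ℂ, ∀ U : ℝ, mean1 ρ u = 0 → (∀ b, ‖u b‖ ≤ U) →
      ∑ s ∈ strings n, wt ρ s * ‖c * lin A w u s‖ ^ 2 ≤ n * (M * U) ^ 2 := by
    intro u U hu hU
    simp_rw [← lin_smul_left]
    exact mart_bound h0 h1 hw hu hU n _ hA
  have r : |θ| / ‖D‖ ≤ K := by rw [div_le_iff₀ hD]; exact hD1
  calc θ ^ 2 * ∑ s ∈ strings n, wt ρ s * ‖c * lin A w v s‖ ^ 2
      ≤ θ ^ 2 * ∑ s ∈ strings n, wt ρ s * (3 * (‖c * lin A w v1 s‖ ^ 2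
          + ((V / ‖D‖) * (2 * M)) ^ 2 + (V / ‖D‖) ^ 2 * ‖c * lin A w w1 s‖ ^ 2)) := by
        refine mul_le_mul_of_nonneg_left (Finset.sum_le_sum fun s hs => ?_) (sq_nonneg θ)
        refine mul_le_mul_of_nonneg_left ?_ (wt_nonneg h0 h1 s)
        rw [decomp s hs]
        refine (sq_add_three _ _ _).trans ?_
        have q1 : ‖c * (vb / D) * (f1 ^ n * wprod w s - f0 ^ n)‖ ≤ V / ‖D‖ * (2 * M) := by
          rw [mul_comm c, mul_assoc, norm_mul, norm_div, norm_mul]
          refine mul_le_mul (div_le_div_of_nonneg_right hvb hD.le) ?_ (by positivity) (by positivity)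
          calc ‖c‖ * ‖f1 ^ n * wprod w s - f0 ^ n‖
              ≤ ‖c‖ * (‖f1‖ ^ n + ‖f0‖ ^ n) := by
                refine mul_le_mul_of_nonneg_left ((norm_sub_le _ _).trans (le_of_eq ?_)) (norm_nonneg c)
                rw [norm_mul, hwn, mul_one, norm_pow, norm_pow]
            _ ≤ 2 * M := by rw [mul_add]; linarith
        have q2 : ‖-(vb / D * f1) * (c * lin A w w1 s)‖ ^ 2
            ≤ (V / ‖D‖) ^ 2 * ‖c * lin A w w1 s‖ ^ 2 := by
          rw [norm_mul, mul_pow]
          refine mul_le_mul_of_nonneg_right (pow_le_pow_left₀ (norm_nonneg _) ?_ 2) (sq_nonneg _)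
          rw [norm_neg, norm_mul, norm_div]
          exact (mul_le_of_le_one_right (by positivity) hf1).trans
            (div_le_div_of_nonneg_right hvb hD.le)
        have q1' := pow_le_pow_left₀ (norm_nonneg _) q1 2
        linarith
    _ = 3 * (θ ^ 2 * (∑ s ∈ strings n, wt ρ s * ‖c * lin A w v1 s‖ ^ 2)
          + (|θ| / ‖D‖) ^ 2 * (V * (2 * M)) ^ 2
          + (|θ| / ‖D‖) ^ 2 * V ^ 2 * ∑ s ∈ strings n, wt ρ s * ‖c * lin A w w1 s‖ ^ 2) := by
        have e : ∀ s, wt ρ s * (3 * (‖c * lin A w v1 s‖ ^ 2 + ((V / ‖D‖) * (2 * M)) ^ 2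
              + (V / ‖D‖) ^ 2 * ‖c * lin A w w1 s‖ ^ 2))
            = 3 * (wt ρ s * ‖c * lin A w v1 s‖ ^ 2) + wt ρ s * (3 * ((V / ‖D‖) * (2 * M)) ^ 2)
              + 3 * (V / ‖D‖) ^ 2 * (wt ρ s * ‖c * lin A w w1 s‖ ^ 2) := fun s => by ring
        simp_rw [e]
        rw [Finset.sum_add_distrib, Finset.sum_add_distrib, ← Finset.mul_sum, ← Finset.mul_sum,
          ← Finset.sum_mul, sum_wt, one_mul, div_pow |θ|, sq_abs]
        ring
    _ ≤ 3 * (θ ^ 2 * (n * (M * (2 * V)) ^ 2) + K ^ 2 * (V * (2 * M)) ^ 2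
          + (|θ| / ‖D‖) ^ 2 * V ^ 2 * (n * (M * (K * ‖D‖)) ^ 2)) := by
        gcongr
        · exact hMn v1 _ hv1 hv1n
        · exact hMn w1 _ hw1 hD2
    _ = 3 * (θ ^ 2 * n * (M ^ 2 * (4 * V ^ 2)) + K ^ 2 * (M ^ 2 * (4 * V ^ 2))
          + θ ^ 2 * n * (M ^ 2 * (V ^ 2 * K ^ 2))) := by
        rw [div_pow, sq_abs]; field_simp; ring
    _ ≤ _ := by
        have hk1 : 1 ≤ (1 + K) ^ 4 := one_le_pow₀ (by linarith)
        have hk2 : K ^ 2 ≤ (1 + K) ^ 4 :=
          (pow_le_pow_left₀ hK (by linarith) 2).trans (pow_le_pow_right₀ (by linarith) (by norm_num))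
        have hk3 : 4 + K ^ 2 ≤ 4 * (1 + K) ^ 4 := by
          have : 1 + K ^ 2 ≤ (1 + K) ^ 4 := by
            nlinarith [pow_le_pow_right₀ (show (1:ℝ) ≤ 1 + K by linarith) (show 2 ≤ 4 by norm_num)]
          nlinarith [sq_nonneg K]
        have hv : V ^ 2 ≤ (1 + V) ^ 2 := pow_le_pow_left₀ hV0 (by linarith) 2
        have a1 : 0 ≤ θ ^ 2 * n * M ^ 2 := by positivity
        have a2 : 0 ≤ M ^ 2 := sq_nonneg M
        nlinarith [mul_le_mul_of_nonneg_left (mul_le_mul hk3 hv (sq_nonneg V) (by positivity)) a1,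
          mul_le_mul_of_nonneg_left (mul_le_mul hk2 hv (sq_nonneg V) (by positivity)) a2]

lemma fact_upper {n : ℕ} (hn : 1 ≤ n) :
    (n.factorial : ℝ) ≤ Real.exp 1 * Real.sqrt n * (n / Real.exp 1) ^ n := by
  obtain ⟨m, rfl⟩ : ∃ m, n = m + 1 := ⟨n - 1, by omega⟩
  have h : Stirling.stirlingSeq (m + 1) ≤ Real.exp 1 / Real.sqrt 2 := by
    rw [← Stirling.stirlingSeq_one]
    exact Stirling.stirlingSeq'_antitone (Nat.zero_le m)
  rw [Stirling.stirlingSeq, div_le_iff₀ (by positivity)] at h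
  refine h.trans (le_of_eq ?_)
  rw [Real.sqrt_mul zero_le_two]
  field_simp

/-- A binomial law puts mass at least a constant over the square root at its mean. -/
lemma binom_lower {a b : ℕ} (ha : 1 ≤ a) (hb : 1 ≤ b) :
    1 / (4 * Real.sqrt (a + b : ℕ)) ≤ ((a + b).choose a : ℝ)
      * ((a : ℝ) / (a + b : ℕ)) ^ a * ((b : ℝ) / (a + b : ℕ)) ^ b := by
  set n := a + b
  have hn : (0:ℝ) < n := by exact_mod_cast (by omega : 0 < n)
  have ha' : (0:ℝ) < a := by exact_mod_cast ha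
  have hb' : (0:ℝ) < b := by exact_mod_cast hb
  rw [Nat.cast_choose ℝ (Nat.le_add_right a b), show n - a = b by omega]
  have h1 := Stirling.le_factorial_stirling n
  have h2 := fact_upper ha
  have h3 := fact_upper hb
  have he := Real.exp_pos 1
  have key : Real.sqrt (2 * Real.pi * n) / (Real.exp 1 ^ 2 * Real.sqrt a * Real.sqrt b)
      ≤ (n.factorial : ℝ) / (a.factorial * b.factorial) * ((a:ℝ) / n) ^ a * ((b:ℝ) / n) ^ b := by
    calc Real.sqrt (2 * Real.pi * n) / (Real.exp 1 ^ 2 * Real.sqrt a * Real.sqrt b)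
        = Real.sqrt (2 * Real.pi * n) * (n / Real.exp 1) ^ n
            / ((Real.exp 1 * Real.sqrt a * (a / Real.exp 1) ^ a)
              * (Real.exp 1 * Real.sqrt b * (b / Real.exp 1) ^ b))
            * ((a:ℝ) / n) ^ a * ((b:ℝ) / n) ^ b := by
          rw [show ((n : ℝ) / Real.exp 1) ^ n
            = ((n:ℝ) / Real.exp 1) ^ a * ((n:ℝ) / Real.exp 1) ^ b by rw [← pow_add]]
          simp only [div_pow]
          field_simp
      _ ≤ _ := by gcongr
  refine le_trans ?_ key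
  rw [div_le_div_iff₀ (by positivity) (by positivity), one_mul]
  have s1 : Real.sqrt a * Real.sqrt b ≤ (n:ℝ) / 2 := by
    have : ((n:ℕ):ℝ) = a + b := by simp [n]
    nlinarith [sq_nonneg (Real.sqrt a - Real.sqrt b), Real.sq_sqrt ha'.le, Real.sq_sqrt hb'.le]
  have s2 : Real.sqrt (2 * Real.pi * n) = Real.sqrt (2 * Real.pi) * Real.sqrt n :=
    Real.sqrt_mul (by positivity) _
  have s3 : (2:ℝ) ≤ Real.sqrt (2 * Real.pi) :=
    Real.le_sqrt_of_sq_le (by nlinarith [Real.pi_gt_three])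
  have s4 : Real.exp 1 ^ 2 ≤ 8 := by nlinarith [Real.exp_one_lt_d9, he]
  rw [s2]
  have s5 := Real.mul_self_sqrt hn.le
  calc Real.exp 1 ^ 2 * Real.sqrt a * Real.sqrt b
      = Real.exp 1 ^ 2 * (Real.sqrt a * Real.sqrt b) := mul_assoc _ _ _
    _ ≤ 8 * ((n:ℝ) / 2) := mul_le_mul s4 s1 (by positivity) (by norm_num)
    _ = 2 * (2 * (Real.sqrt n * Real.sqrt n)) := by rw [s5]; ring
    _ ≤ Real.sqrt (2 * Real.pi) * (4 * (Real.sqrt n * Real.sqrt n)) := by
        nlinarith [mul_le_mul_of_nonneg_right s3 (show (0:ℝ) ≤ Real.sqrt n * Real.sqrt n by positivity)]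
    _ = _ := by ring

/-- The local limit upper bound for the number of changes. -/
lemma count_le {ρ η : ℝ} (hη : 0 < η) (h0 : η ≤ ρ) (h1 : η ≤ 1 - ρ) {k : ℕ} (hk : 1 ≤ k) (r : ℕ) :
    ∑ s ∈ (strings k).filter (fun s => cnt s = r), wt ρ s ≤ 1 / (η * Real.sqrt k) := by
  have hρ0 : 0 ≤ ρ := by linarith
  set ψ : ℝ → ℂ := fun θ => ((1 - ρ : ℝ) : ℂ) + (ρ : ℂ) * ee θ
  have cψ : Continuous ψ := continuous_const.add (continuous_const.mul continuous_ee)
  have expand : ∀ (k : ℕ) θ, ∑ s ∈ strings k, (wt ρ s : ℂ) * ee ((cnt s : ℝ) * θ) = ψ θ ^ k := by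
    intro k θ
    induction k with
    | zero => simp [strings, wt, cnt, ee_zero]
    | succ k ih =>
      rw [sum_strings_succ, pow_succ', ← ih, Finset.mul_sum, ← Finset.sum_add_distrib]
      refine Finset.sum_congr rfl fun s _ => ?_
      simp [wt, cnt, ψ, add_mul, ee_add]; ring
  have ident : ∫ θ, ψ θ ^ k * ee (-(r:ℝ) * θ) ∂per
      = ((2 * Real.pi * ∑ s ∈ (strings k).filter (fun s => cnt s = r), wt ρ s : ℝ) : ℂ) := by
    have e : ∀ θ, ψ θ ^ k * ee (-(r:ℝ) * θ)
        = ∑ s ∈ strings k, (wt ρ s : ℂ) * ee ((((cnt s : ℤ) - r : ℤ) : ℝ) * θ) := by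
      intro θ
      rw [← expand, Finset.sum_mul]
      refine Finset.sum_congr rfl fun s _ => ?_
      rw [mul_assoc, ← ee_add]; congr 2; push_cast; ring
    simp_rw [e]
    rw [integral_finsetSum]
    swap
    · exact fun s _ => (integrable_per (continuous_ee.comp (by fun_prop))).const_mul _
    simp_rw [integral_const_mul, integral_ee]
    rw [Finset.mul_sum, Finset.sum_filter, Complex.ofReal_sum]
    refine Finset.sum_congr rfl fun s _ => ?_
    by_cases h : cnt s = r
    · simp [h]; ring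
    · rw [if_neg h, if_neg (by omega)]; simp
  have hS0 : 0 ≤ ∑ s ∈ (strings k).filter (fun s => cnt s = r), wt ρ s :=
    Finset.sum_nonneg fun s _ => wt_nonneg hρ0 (by linarith) s
  have hk0 : (0:ℝ) < k := by exact_mod_cast hk
  set c := 2 * η ^ 2 / Real.pi ^ 2
  have hc : 0 < c := by positivity
  have bound : 2 * Real.pi * ∑ s ∈ (strings k).filter (fun s => cnt s = r), wt ρ s
      ≤ ∫ θ, Real.exp (-(c * k) * θ ^ 2) ∂per := by
    calc _ = ‖∫ θ, ψ θ ^ k * ee (-(r:ℝ) * θ) ∂per‖ := by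
          rw [ident, Complex.norm_real, Real.norm_eq_abs, abs_of_nonneg (by positivity)]
      _ ≤ ∫ θ, ‖ψ θ ^ k * ee (-(r:ℝ) * θ)‖ ∂per := norm_integral_le_integral_norm _
      _ ≤ _ := by
          refine integral_mono_ae (integrable_per (by fun_prop)) (integrable_per (by fun_prop)) ?_
          filter_upwards [ae_restrict_mem measurableSet_Ioc] with θ hθ
          rw [norm_mul, norm_ee, mul_one, norm_pow]
          have h2 := two_term (a := 1 - ρ) (b := ρ) (by linarith) hρ0 (by linarith) θ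
          have hcos := Real.cos_le_one_sub_mul_cos_sq (abs_le.2 ⟨hθ.1.le, hθ.2⟩)
          have hprod : η ^ 2 ≤ (1 - ρ) * ρ := by nlinarith
          calc ‖ψ θ‖ ^ k ≤ Real.exp (-c * θ ^ 2) ^ k := by
                refine pow_le_pow_left₀ (norm_nonneg _) ?_ k
                refine h2.trans (le_trans ?_ (Real.add_one_le_exp _))
                have : c * θ ^ 2 = η ^ 2 * (2 / Real.pi ^ 2 * θ ^ 2) := by simp [c]; ring
                nlinarith [mul_le_mul hprod (show 2 / Real.pi ^ 2 * θ ^ 2 ≤ 1 - Real.cos θ by linarith)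
                  (by positivity) (by nlinarith)]
            _ = _ := by rw [← Real.exp_nat_mul]; congr 1; ring
  have g := gauss_per (show 0 < c * k by positivity)
  have hs : Real.sqrt (Real.pi / (c * k)) ≤ 2 * Real.pi * (1 / (η * Real.sqrt k)) := by
    rw [Real.sqrt_le_left (by positivity)]
    rw [mul_pow, div_pow, mul_pow η, Real.sq_sqrt hk0.le]
    simp only [c]
    rw [div_mul_eq_mul_div, div_div_eq_mul_div]
    field_simp
    nlinarith [Real.pi_le_four, Real.pi_pos]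
  exact le_of_mul_le_mul_left (bound.trans (g.trans hs)) (by positivity)

/-- Averaging over patterns with a given number of changes, for a statistic of a short window. -/
lemma class_avg {η : ℝ} (hη : 0 < η) {a L b d : ℕ} (hd : η * (a + L + b : ℕ) ≤ d)
    (hd' : η * (a + L + b : ℕ) ≤ ((a + L + b : ℕ) : ℝ) - d) (hhalf : 1 ≤ a + b)
    (hrest : a + L + b ≤ 3 * (a + b))
    (g : List Bool → ℝ) (hg : ∀ u, 0 ≤ g u) :
    ∑ s ∈ (strings (a + L + b)).filter (fun s => cnt s = d), g ((s.drop a).take L)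
      ≤ 8 / η * ((a + L + b).choose d : ℝ)
          * ∑ u ∈ strings L, wt ((d : ℝ) / (a + L + b : ℕ)) u * g u := by
  set n := a + L + b with hn
  have hn0 : (0:ℝ) < n := by exact_mod_cast (by omega : 0 < n)
  have hd1 : 1 ≤ d := by
    have : (0:ℝ) < d := lt_of_lt_of_le (by positivity) hd
    exact_mod_cast this
  have hd2 : d + 1 ≤ n := by
    have : (d:ℝ) < n := by nlinarith
    exact_mod_cast this
  set ρ : ℝ := (d:ℝ) / n
  have hρ : η ≤ ρ := (le_div_iff₀ hn0).2 hd
  have hρ' : η ≤ 1 - ρ := by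
    rw [one_sub_div hn0.ne', le_div_iff₀ hn0]; exact hd'
  set P := ρ ^ d * (1 - ρ) ^ (n - d)
  have hwn : ∀ u, 0 ≤ wt ρ u := wt_nonneg (by linarith) (by linarith)
  have hP : ∀ s ∈ (strings n).filter (fun s => cnt s = d), wt ρ s = P := by
    intro s hs
    rw [mem_filter, mem_strings] at hs
    rw [wt_eq, hs.1, hs.2]
  have low := binom_lower (a := d) (b := n - d) hd1 (by omega)
  rw [Nat.add_sub_cancel' (by omega)] at low
  have hP' : ((n - d : ℕ) : ℝ) / n = 1 - ρ := by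
    rw [Nat.cast_sub (by omega), sub_div, div_self hn0.ne']
  rw [hP', mul_assoc] at low
  have hP0 : 0 < P := mul_pos (pow_pos (by linarith) _) (pow_pos (by linarith) _)
  have main : P * ∑ s ∈ (strings n).filter (fun s => cnt s = d), g ((s.drop a).take L)
      ≤ (∑ u ∈ strings L, wt ρ u * g u) * (1 / (η * Real.sqrt (a + b : ℕ))) := by
    rw [Finset.mul_sum]
    rw [Finset.sum_congr rfl (fun s hs => by rw [← hP s hs]), Finset.sum_filter]
    rw [hn, show a + L + b = a + (L + b) by omega, sum_strings_add]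
    simp_rw [sum_strings_add L b]
    rw [Finset.sum_comm, Finset.sum_mul]
    refine Finset.sum_le_sum fun u hu => ?_
    have hu' := mem_strings.1 hu
    calc ∑ p ∈ strings a, ∑ r ∈ strings b,
          (if cnt (p ++ (u ++ r)) = d then wt ρ (p ++ (u ++ r)) *
            g (((p ++ (u ++ r)).drop a).take L) else 0)
        = wt ρ u * g u * ∑ p ∈ strings a, ∑ r ∈ strings b,
            (if cnt (p ++ r) + cnt u = d then wt ρ (p ++ r) else 0) := by
          rw [Finset.mul_sum]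
          refine Finset.sum_congr rfl fun p hp => ?_
          rw [Finset.mul_sum]
          refine Finset.sum_congr rfl fun r hr => ?_
          have hp' := mem_strings.1 hp
          rw [List.drop_left' hp', List.take_left' hu', mul_ite, mul_zero]
          simp only [cnt_append, wt_append]
          split_ifs <;> first | ring1 | omega | (exfalso; omega)
      _ ≤ _ := by
          refine mul_le_mul_of_nonneg_left ?_ (mul_nonneg (hwn u) (hg u))
          rw [← sum_strings_add a b (fun s => if cnt s + cnt u = d then wt ρ s else 0),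
            ← Finset.sum_filter]
          refine le_trans (Finset.sum_le_sum_of_subset_of_nonneg ?_ fun s _ _ => hwn s)
            (count_le hη hρ hρ' hhalf (d - cnt u))
          intro s
          simp only [mem_filter]
          exact fun h => ⟨h.1, by omega⟩
  set T := ∑ s ∈ (strings n).filter (fun s => cnt s = d), g ((s.drop a).take L)
  set S := ∑ u ∈ strings L, wt ρ u * g u
  have hT : 0 ≤ T := Finset.sum_nonneg fun s _ => hg _
  have hS : 0 ≤ S := Finset.sum_nonneg fun u _ => mul_nonneg (hwn u) (hg u)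
  have hsq : Real.sqrt n ≤ 2 * Real.sqrt (a + b : ℕ) := by
    rw [Real.sqrt_le_left (by positivity), mul_pow, Real.sq_sqrt (Nat.cast_nonneg _)]
    have : (n:ℝ) ≤ 3 * (a + b : ℕ) := by exact_mod_cast hrest
    nlinarith [Nat.cast_nonneg (α := ℝ) (a + b)]
  have hab : (0:ℝ) < (a + b : ℕ) := by exact_mod_cast hhalf
  have hsn : 0 < Real.sqrt n := Real.sqrt_pos.2 hn0
  calc T = T * (4 * Real.sqrt n) * (1 / (4 * Real.sqrt n)) := by field_simp
    _ ≤ T * (4 * Real.sqrt n) * ((n.choose d : ℝ) * P) :=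
        mul_le_mul_of_nonneg_left low (by positivity)
    _ = (4 * Real.sqrt n) * (n.choose d : ℝ) * (P * T) := by ring
    _ ≤ (4 * (2 * Real.sqrt (a + b : ℕ))) * (n.choose d : ℝ)
          * (S * (1 / (η * Real.sqrt (a + b : ℕ)))) := by
        refine mul_le_mul ?_ main (mul_nonneg hP0.le hT) (by positivity)
        exact mul_le_mul_of_nonneg_right (by linarith) (Nat.cast_nonneg _)
    _ = _ := by field_simp; ring

lemma card_class : ∀ (n d : ℕ), ((strings n).filter (fun s => cnt s = d)).card = n.choose d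
  | 0, d => by cases d <;> simp [strings, Finset.filter_singleton, cnt]
  | n + 1, d => by
    rw [Finset.card_eq_sum_ones, Finset.sum_filter, sum_strings_succ]
    cases d with
    | zero =>
      have h := card_class n 0
      rw [Finset.card_eq_sum_ones, Finset.sum_filter] at h
      simp [cnt] at h ⊢; simpa using h
    | succ d =>
      have h1 := card_class n d
      have h2 := card_class n (d + 1)
      rw [Finset.card_eq_sum_ones, Finset.sum_filter] at h1 h2
      simp only [cnt, if_true, Bool.false_eq_true, if_false, zero_add]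
      simp only [show ∀ x : List Bool, (1 + cnt x = d + 1) = (cnt x = d) from fun x => by
        apply propext; omega]
      rw [h1, h2, Nat.choose_succ_succ]

end Vale.Agent.P321
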