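import Mathlib.Data.Real.Basic
import Mathlib.Data.Fintype.Pi
import Mathlib.Data.List.OfFn
import Mathlib.Algebra.BigOperators.Ring.Finset

/-! The deletion channel. -/

namespace Vale.Agent.P321

/-- `traceProb q x t` is the probability that the deletion channel with deletion probability `q`
turns the string `x` into `t`: the first bit of `x` is deleted with probability `q`, and kept
with probability `1 - q`, independently of the rest. -/
def traceProb (q : ℝ) : List Bool → List Bool → ℝ
  | [], [] => 1
  | [], _ :: _ => 0
  | _ :: x, [] => q * traceProb q x []
  | a :: x, b :: t => q * traceProb q x (b :: t) + if a = b then (1 - q) * traceProb q x t else 0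

/-- All binary strings of length exactly `n`. -/
def strings : ℕ → Finset (List Bool)
  | 0 => {[]}
  | n + 1 => (strings n).image (List.cons true) ∪ (strings n).image (List.cons false)

/-- All binary strings of length at most `n`: the possible traces of a string of length `n`. -/
def traces (n : ℕ) : Finset (List Bool) := (Finset.range (n + 1)).biUnion strings

end Vale.Agent.P321
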