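import Vale.Agent.P321.Alt
import Mathlib.Analysis.SpecialFunctions.Gaussian.GaussianIntegral
import Mathlib.Analysis.SpecialFunctions.Integrals.Basic
import Mathlib.Analysis.SpecialFunctions.Trigonometric.Bounds
import Mathlib.Analysis.SpecialFunctions.Stirling
import Mathlib.Analysis.SpecificLimits.Normed
import Mathlib.Analysis.Real.Pi.Bounds
import Mathlib.MeasureTheory.Integral.Prod
import Mathlib.MeasureTheory.Integral.IntervalIntegral.Periodic

/-! Fourier tools. -/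

namespace Vale.Agent.P321

open Finset MeasureTheory Filter

/-- `exp (i α)`. -/
noncomputable def ee (α : ℝ) : ℂ := Complex.exp (α * Complex.I)

lemma ee_add (a b : ℝ) : ee (a + b) = ee a * ee b := by
  simp [ee, add_mul, Complex.exp_add]

lemma ee_zero : ee 0 = 1 := by simp [ee]

lemma norm_ee (a : ℝ) : ‖ee a‖ = 1 := Complex.norm_exp_ofReal_mul_I a

lemma continuous_ee : Continuous ee := by unfold ee; fun_prop

lemma ee_periodic : Function.Periodic ee (2 * Real.pi) := fun a => by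
  rw [ee_add]
  have : ee (2 * Real.pi) = 1 := by
    simp only [ee]; push_cast; exact Complex.exp_two_pi_mul_I
  rw [this, mul_one]

lemma conj_ee (a : ℝ) : (starRingEnd ℂ) (ee a) = ee (-a) := by
  simp only [ee, ← Complex.exp_conj, map_mul, Complex.conj_ofReal, Complex.conj_I]
  push_cast; ring_nf

lemma norm_ee_sub_one_le (u : ℝ) : ‖ee u - 1‖ ≤ |u| := by
  have := Real.norm_exp_I_mul_ofReal_sub_one_le (x := u)
  rwa [mul_comm, Real.norm_eq_abs] at this

lemma norm_ee_sub_le (u : ℝ) : ‖ee u - 1 - u * Complex.I‖ ≤ 2 * u ^ 2 := by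
  have hn : ‖(u : ℂ) * Complex.I‖ = |u| := by simp
  rcases le_or_gt |u| 1 with h | h
  · refine (Complex.norm_exp_sub_one_sub_id_le (hn.le.trans h)).trans ?_
    rw [hn, sq_abs]; linarith [sq_nonneg u]
  · calc ‖ee u - 1 - u * Complex.I‖ ≤ ‖ee u - 1‖ + ‖(u : ℂ) * Complex.I‖ := norm_sub_le _ _
      _ ≤ |u| + |u| := add_le_add (norm_ee_sub_one_le u) hn.le
      _ ≤ 2 * u ^ 2 := by rw [← sq_abs u]; nlinarith

/-- Lebesgue measure on one period. -/
noncomputable def per : Measure ℝ := volume.restrict (Set.Ioc (-Real.pi) Real.pi)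

instance : IsFiniteMeasure per := by unfold per; infer_instance

lemma per_real : per.real Set.univ = 2 * Real.pi := by
  simp [per, measureReal_def, Real.pi_pos.le]; ring

lemma integral_per (f : ℝ → ℂ) : ∫ x, f x ∂per = ∫ x in (-Real.pi)..Real.pi, f x := by
  rw [intervalIntegral.integral_of_le (by linarith [Real.pi_pos]), per]

lemma integrable_per {E : Type*} [NormedAddCommGroup E] {f : ℝ → E} (hf : Continuous f) :
    Integrable f per :=
  (hf.integrableOn_Icc (a := -Real.pi) (b := Real.pi)).mono_set Set.Ioc_subset_Icc_self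

lemma integrable_per_prod {E : Type*} [NormedAddCommGroup E] {f : ℝ → ℝ → E}
    (hf : Continuous (Function.uncurry f)) : Integrable (Function.uncurry f) (per.prod per) := by
  rw [per, Measure.prod_restrict, ← Measure.volume_eq_prod]
  exact (hf.continuousOn.integrableOn_compact (isCompact_Icc.prod isCompact_Icc)).mono_set
    (Set.prod_mono Set.Ioc_subset_Icc_self Set.Ioc_subset_Icc_self)

lemma integral_ee (n : ℤ) :
    ∫ θ, ee ((n : ℝ) * θ) ∂per = if n = 0 then (2 * Real.pi : ℂ) else 0 := by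
  rw [integral_per]
  split_ifs with h
  · simp [h, ee_zero]; ring
  · have hc : (n : ℂ) * Complex.I ≠ 0 := mul_ne_zero (Int.cast_ne_zero.2 h) Complex.I_ne_zero
    have : ∀ θ : ℝ, ee ((n : ℝ) * θ) = Complex.exp ((n : ℂ) * Complex.I * θ) := fun θ => by
      simp only [ee]; push_cast; ring_nf
    simp_rw [this]
    rw [integral_exp_mul_complex hc]
    have : Complex.exp ((n : ℂ) * Complex.I * (Real.pi : ℝ))
        = Complex.exp ((n : ℂ) * Complex.I * ((-Real.pi : ℝ) : ℂ)) := by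
      rw [show (n : ℂ) * Complex.I * (Real.pi : ℝ)
        = (n : ℂ) * Complex.I * ((-Real.pi : ℝ) : ℂ) + (n : ℂ) * (2 * Real.pi * Complex.I) by
          push_cast; ring, Complex.exp_add, Complex.exp_int_mul_two_pi_mul_I, mul_one]
    rw [this, sub_self, zero_div]

/-- Truncated generating polynomial of the geometric law with ratio `x`. -/
noncomputable def gphi (x : ℝ) (L : ℕ) (α : ℝ) : ℂ :=
  ∑ g ∈ range (L + 1), (((1 - x) * x ^ g : ℝ) : ℂ) * ee ((g : ℝ) * α)

lemma continuous_gphi (x : ℝ) (L : ℕ) : Continuous (gphi x L) :=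
  continuous_finsetSum _ fun g _ => continuous_const.mul (continuous_ee.comp (by fun_prop))

lemma gphi_periodic (x : ℝ) (L : ℕ) : Function.Periodic (gphi x L) (2 * Real.pi) := fun a => by
  refine Finset.sum_congr rfl fun g _ => ?_
  rw [mul_add]
  congr 1
  exact (ee_periodic.nat_mul g) ((g:ℝ) * a)

/-- Coefficients of powers of `gphi`: a negative binomial law. -/
noncomputable def nb (x : ℝ) (k : ℕ) (r : ℤ) : ℝ := tc k r * (1 - x) ^ k * x ^ r

lemma sum_tc (k : ℕ) (r : ℤ) : ∀ m : ℕ,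
    ∑ g ∈ range m, tc k (r - g) = tc (k + 1) r - tc (k + 1) (r - m)
  | 0 => by simp
  | m + 1 => by
    rw [Finset.sum_range_succ, sum_tc k r m, tc_succ k (r - m)]
    push_cast
    rw [show r - (m:ℤ) - 1 = r - (m + 1) by ring]; ring

lemma coeff_gphi {x : ℝ} (hx : x ≠ 0) (L : ℕ) : ∀ (k : ℕ) (r : ℤ), r ≤ L →
    ∫ α, gphi x L α ^ k * ee (-(r : ℝ) * α) ∂per = 2 * Real.pi * (nb x k r : ℂ)
  | 0, r, _ => by
    have := integral_ee (-r)
    push_cast at this
    simp only [pow_zero, one_mul, this, neg_eq_zero]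
    split_ifs with h
    · simp [h, nb, tc, Nat.multichoose_zero_right]
    · rcases lt_or_gt_of_ne h with h' | h'
      · simp [nb, tc_of_neg h']
      · obtain ⟨n, rfl⟩ : ∃ n : ℕ, r = ((n + 1 : ℕ) : ℤ) := ⟨r.toNat - 1, by omega⟩
        rw [nb, tc_natCast, Nat.multichoose_zero_succ]; simp
  | k + 1, r, hr => by
    have e : ∀ α, gphi x L α ^ (k + 1) * ee (-(r : ℝ) * α)
        = ∑ g ∈ range (L + 1), (((1 - x) * x ^ g : ℝ) : ℂ)
            * (gphi x L α ^ k * ee (-((r - g : ℤ) : ℝ) * α)) := by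
      intro α
      rw [pow_succ', gphi, Finset.sum_mul, Finset.sum_mul]
      refine Finset.sum_congr rfl fun g _ => ?_
      rw [show -((r - g : ℤ) : ℝ) * α = -(r : ℝ) * α + (g : ℝ) * α by push_cast; ring, ee_add]
      ring
    simp_rw [e]
    rw [integral_finsetSum]
    swap
    · exact fun g _ => (integrable_per (((continuous_gphi x L).pow k).mul
        (continuous_ee.comp (by fun_prop)))).const_mul _
    simp_rw [integral_const_mul]
    rw [Finset.sum_congr rfl (fun (g : ℕ) _ => by rw [coeff_gphi hx L k (r - g) (by omega)])]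
    have key : ∑ g ∈ range (L + 1), (1 - x) * x ^ g * nb x k (r - g) = nb x (k + 1) r := by
      have : ∀ g : ℕ, (1 - x) * x ^ g * nb x k (r - g)
          = (1 - x) ^ (k + 1) * x ^ r * tc k (r - g) := by
        intro g
        rw [nb, zpow_sub₀ hx, zpow_natCast, pow_succ']
        field_simp
      simp_rw [this]
      rw [← Finset.mul_sum, sum_tc, tc_of_neg (show r - ((L + 1 : ℕ) : ℤ) < 0 by push_cast; omega),
        sub_zero, nb]
      ring
    rw [← key]
    push_cast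
    rw [Finset.mul_sum]
    exact Finset.sum_congr rfl fun g _ => by ring

/-- Double coefficient extraction. -/
lemma coeff_two {x : ℝ} (hx : x ≠ 0) (L j k : ℕ) {r1 r2 : ℤ} (h1 : r1 ≤ L) (h2 : r2 ≤ L) :
    ∫ θ, ee (-(r1 : ℝ) * θ) * ∫ ω, gphi x L (θ + ω) ^ j * gphi x L ω ^ k
        * ee (-((r1 + r2 : ℤ) : ℝ) * ω) ∂per ∂per
      = (2 * Real.pi) ^ 2 * ((nb x j r1 * nb x k r2 : ℝ) : ℂ) := by
  simp_rw [← integral_const_mul]
  have cg := continuous_gphi x L
  have ce := continuous_ee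
  rw [integral_integral_swap (integrable_per_prod (by fun_prop))]
  have inner : ∀ ω : ℝ, ∫ θ, ee (-(r1 : ℝ) * θ) * (gphi x L (θ + ω) ^ j * gphi x L ω ^ k
        * ee (-((r1 + r2 : ℤ) : ℝ) * ω)) ∂per
      = (2 * Real.pi * (nb x j r1 : ℂ)) * (gphi x L ω ^ k * ee (-(r2 : ℝ) * ω)) := by
    intro ω
    have hp : Function.Periodic (fun u => gphi x L u ^ j * ee (-(r1 : ℝ) * u)) (2 * Real.pi) := by
      intro u
      simp only [gphi_periodic x L u]
      congr 1
      rw [show -(r1:ℝ) * (u + 2 * Real.pi) = -(r1:ℝ) * u + ((-r1 : ℤ) : ℝ) * (2 * Real.pi) by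
        push_cast; ring]
      exact (ee_periodic.int_mul (-r1)) _
    rw [← coeff_gphi hx L j r1 h1]
    have : ∀ θ, ee (-(r1 : ℝ) * θ) * (gphi x L (θ + ω) ^ j * gphi x L ω ^ k
          * ee (-((r1 + r2 : ℤ) : ℝ) * ω))
        = (gphi x L (θ + ω) ^ j * ee (-(r1 : ℝ) * (θ + ω)))
            * (gphi x L ω ^ k * ee (-(r2 : ℝ) * ω)) := by
      intro θ
      rw [show -(r1 : ℝ) * (θ + ω) = -(r1 : ℝ) * θ + -(r1 : ℝ) * ω by ring,
        show -((r1 + r2 : ℤ) : ℝ) * ω = -(r1 : ℝ) * ω + -(r2 : ℝ) * ω by push_cast; ring, ee_add,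
        ee_add]
      ring
    simp_rw [this]
    rw [integral_mul_const]
    congr 1
    rw [integral_per, integral_per,
      intervalIntegral.integral_comp_add_right (fun u => gphi x L u ^ j * ee (-(r1 : ℝ) * u)),
      show Real.pi + ω = (-Real.pi + ω) + 2 * Real.pi by ring,
      hp.intervalIntegral_add_eq (-Real.pi + ω) (-Real.pi)]
    congr 1; ring
  simp_rw [inner]
  rw [integral_const_mul, coeff_gphi hx L k r2 h2]
  push_cast; ring

/-- A two-atom bound on a characteristic function. -/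
lemma two_term {a b : ℝ} (ha : 0 ≤ a) (hb : 0 ≤ b) (hab : a + b ≤ 1) (α : ℝ) :
    ‖(a : ℂ) + (b : ℂ) * ee α‖ ≤ a + b - a * b * (1 - Real.cos α) := by
  have hc : 1 - Real.cos α ≤ 2 := by linarith [Real.neg_one_le_cos α]
  have hc0 : 0 ≤ 1 - Real.cos α := by linarith [Real.cos_le_one α]
  have hab2 : 2 * (a * b) ≤ a + b := by nlinarith [sq_nonneg (a - b)]
  have hr : 0 ≤ a + b - a * b * (1 - Real.cos α) := by nlinarith [mul_nonneg ha hb]
  rw [← pow_le_pow_iff_left₀ (norm_nonneg _) hr two_ne_zero, Complex.sq_norm,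
    Complex.normSq_apply]
  simp only [Complex.add_re, Complex.mul_re, Complex.add_im, Complex.mul_im, Complex.ofReal_re,
    Complex.ofReal_im, ee, Complex.exp_ofReal_mul_I_re, Complex.exp_ofReal_mul_I_im]
  have htrig : b ^ 2 * (Real.sin α ^ 2 + Real.cos α ^ 2) = b ^ 2 := by
    rw [Real.sin_sq_add_cos_sq, mul_one]
  nlinarith [htrig, mul_nonneg (mul_nonneg (mul_nonneg ha hb) hc0)
    (sub_nonneg.2 hab), sq_nonneg (a * b * (1 - Real.cos α))]

lemma geom_le {x : ℝ} (hx0 : 0 ≤ x) (hx1 : x < 1) (n : ℕ) :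
    ∑ g ∈ range n, (1 - x) * x ^ g ≤ 1 := by
  rw [← Finset.mul_sum]
  have := geom_sum_mul_neg x n
  nlinarith [pow_nonneg hx0 n]

/-- Decay of `gphi`. -/
lemma gphi_decay {x : ℝ} (hx0 : 0 ≤ x) (hx1 : x < 1) {L : ℕ} (hL : 1 ≤ L) (α : ℝ) :
    ‖gphi x L α‖ ≤ Real.exp (-((1 - x) ^ 2 * x) * (1 - Real.cos α)) := by
  obtain ⟨M, rfl⟩ : ∃ M, L = M + 1 := ⟨L - 1, by omega⟩
  have hs := geom_le hx0 hx1 (M + 1 + 1)
  rw [Finset.sum_range_succ', Finset.sum_range_succ'] at hs
  simp only [zero_add, pow_zero, mul_one, pow_one] at hs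
  have hnn : ∀ g : ℕ, 0 ≤ (1 - x) * x ^ g := fun g => mul_nonneg (by linarith) (pow_nonneg hx0 g)
  have hrest : 0 ≤ ∑ k ∈ range M, (1 - x) * x ^ (k + 1 + 1) := Finset.sum_nonneg fun g _ => hnn _
  have h2 := two_term (a := 1 - x) (b := (1 - x) * x) (by linarith) (by nlinarith) (by nlinarith) α
  calc ‖gphi x (M + 1) α‖
      ≤ ‖((1 - x : ℝ) : ℂ) + (((1 - x) * x : ℝ) : ℂ) * ee α‖
        + ∑ k ∈ range M, (1 - x) * x ^ (k + 1 + 1) := by
        rw [gphi, Finset.sum_range_succ', Finset.sum_range_succ', add_assoc, add_comm]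
        simp only [zero_add, pow_zero, mul_one, pow_one, Nat.cast_zero, zero_mul, ee_zero,
          Nat.cast_one, one_mul]
        rw [add_comm (((((1 - x) * x : ℝ)) : ℂ) * ee α)]
        refine (norm_add_le _ _).trans (add_le_add le_rfl ((norm_sum_le _ _).trans (le_of_eq ?_)))
        refine Finset.sum_congr rfl fun g _ => ?_
        rw [norm_mul, norm_ee, mul_one, Complex.norm_real, Real.norm_eq_abs, abs_of_nonneg (hnn _)]
    _ ≤ 1 + -((1 - x) ^ 2 * x) * (1 - Real.cos α) := by nlinarith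
    _ ≤ _ := by linarith [Real.add_one_le_exp (-((1 - x) ^ 2 * x) * (1 - Real.cos α))]

/-- Second moment of the geometric law. -/
lemma geom_sq_le {x : ℝ} (hx0 : 0 ≤ x) (hx1 : x < 1) (n : ℕ) :
    ∑ g ∈ range n, (1 - x) * x ^ g * (g : ℝ) ^ 2 ≤ 2 / (1 - x) ^ 2 := by
  have hs := hasSum_choose_mul_geometric_of_norm_lt_one 2 (r := x)
    (by rwa [Real.norm_eq_abs, abs_of_nonneg hx0])
  have h2 := sum_le_hasSum (range n) (fun g _ => by positivity) hs
  calc ∑ g ∈ range n, (1 - x) * x ^ g * (g : ℝ) ^ 2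
      ≤ ∑ g ∈ range n, (2 * (1 - x)) * (((g + 2).choose 2 : ℝ) * x ^ g) := by
        refine Finset.sum_le_sum fun g _ => ?_
        have h : (g : ℝ) ^ 2 ≤ 2 * ((g + 2).choose 2 : ℝ) := by
          rw [Nat.cast_choose_two ℝ]; push_cast
          nlinarith [Nat.cast_nonneg (α := ℝ) g]
        have : 0 ≤ (1 - x) * x ^ g := mul_nonneg (by linarith) (pow_nonneg hx0 g)
        nlinarith
    _ ≤ (2 * (1 - x)) * (1 / (1 - x) ^ 3) := by
        rw [← Finset.mul_sum]; exact mul_le_mul_of_nonneg_left h2 (by linarith)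
    _ = _ := by field_simp

/-- Mean of the truncated geometric law. -/
noncomputable def gmean (x : ℝ) (L : ℕ) : ℝ := ∑ g ∈ range (L + 1), (1 - x) * x ^ g * g

lemma gmean_nonneg {x : ℝ} (hx0 : 0 ≤ x) (hx1 : x ≤ 1) (L : ℕ) : 0 ≤ gmean x L :=
  Finset.sum_nonneg fun g _ => by
    have : 0 ≤ 1 - x := by linarith
    positivity

lemma gphi_taylor {x : ℝ} (hx0 : 0 ≤ x) (hx1 : x < 1) (L : ℕ) (θ ω : ℝ) :
    ‖gphi x L (θ + ω) - gphi x L ω - (θ * gmean x L : ℝ) * Complex.I‖
      ≤ 4 / (1 - x) ^ 2 * (|θ| * (|θ| + |ω|)) := by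
  have e : gphi x L (θ + ω) - gphi x L ω - (θ * gmean x L : ℝ) * Complex.I
      = ∑ g ∈ range (L + 1), (((1 - x) * x ^ g : ℝ) : ℂ) *
          (ee ((g:ℝ) * ω) * (ee ((g:ℝ) * θ) - 1 - ((g:ℝ) * θ : ℝ) * Complex.I)
            + (ee ((g:ℝ) * ω) - 1) * (((g:ℝ) * θ : ℝ) * Complex.I)) := by
    simp only [gphi, gmean, mul_add, ee_add]
    push_cast
    rw [Finset.mul_sum, Finset.sum_mul, ← Finset.sum_sub_distrib, ← Finset.sum_sub_distrib]
    exact Finset.sum_congr rfl fun g _ => by ring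
  rw [e]
  refine (norm_sum_le _ _).trans ?_
  calc _ ≤ ∑ g ∈ range (L + 1), ((1 - x) * x ^ g * (g:ℝ) ^ 2) * (2 * (|θ| * (|θ| + |ω|))) := by
        refine Finset.sum_le_sum fun g _ => ?_
        have hn : 0 ≤ (1 - x) * x ^ g := mul_nonneg (by linarith) (pow_nonneg hx0 g)
        rw [norm_mul, Complex.norm_real, Real.norm_eq_abs, abs_of_nonneg hn, mul_assoc ((1-x)*x^g)]
        refine mul_le_mul_of_nonneg_left ((norm_add_le _ _).trans ?_) hn
        rw [norm_mul, norm_mul, norm_ee, one_mul]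
        have a1 := norm_ee_sub_le ((g:ℝ) * θ)
        have a2 := norm_ee_sub_one_le ((g:ℝ) * ω)
        have a3 : ‖(((g:ℝ) * θ : ℝ) : ℂ) * Complex.I‖ = (g:ℝ) * |θ| := by
          simp [abs_mul]
        rw [a3]
        have a4 := mul_le_mul_of_nonneg_right a2 (show 0 ≤ (g:ℝ) * |θ| by positivity)
        rw [abs_mul, Nat.abs_cast] at a4
        nlinarith [mul_nonneg (mul_nonneg (sq_nonneg (g:ℝ)) (abs_nonneg θ)) (abs_nonneg ω),
          sq_abs θ]
    _ ≤ _ := by
        rw [← Finset.sum_mul]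
        refine (mul_le_mul_of_nonneg_right (geom_sq_le hx0 hx1 _) (by positivity)).trans (le_of_eq ?_)
        ring

lemma gphi_lip {x : ℝ} (hx0 : 0 ≤ x) (hx1 : x < 1) (L : ℕ) (α : ℝ) :
    ‖gphi x L α - gphi x L 0‖ ≤ 2 / (1 - x) ^ 2 * |α| := by
  simp only [gphi, mul_zero, ee_zero, mul_one, ← Finset.sum_sub_distrib]
  refine (norm_sum_le _ _).trans ?_
  refine le_trans (Finset.sum_le_sum fun g _ => ?_)
    (le_trans (le_of_eq (Finset.sum_mul (range (L + 1)) (fun g : ℕ => (1 - x) * x ^ g * (g:ℝ) ^ 2) |α|).symm)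
      (mul_le_mul_of_nonneg_right (geom_sq_le hx0 hx1 _) (abs_nonneg α)))
  have hn : 0 ≤ (1 - x) * x ^ g := mul_nonneg (by linarith) (pow_nonneg hx0 g)
  rw [← mul_sub_one, norm_mul, Complex.norm_real, Real.norm_eq_abs, abs_of_nonneg hn,
    mul_assoc ((1 - x) * x ^ g)]
  refine mul_le_mul_of_nonneg_left ((norm_ee_sub_one_le _).trans ?_) hn
  rw [abs_mul, Nat.abs_cast]
  refine mul_le_mul_of_nonneg_right ?_ (abs_nonneg α)
  rcases Nat.eq_zero_or_pos g with rfl | hg
  · simp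
  · have : (1:ℝ) ≤ g := by exact_mod_cast hg
    nlinarith

/-- The combined decay in two variables. -/
lemma cos_two {θ ω : ℝ} (hθ : |θ| ≤ Real.pi) (hω : |ω| ≤ Real.pi) :
    (θ ^ 2 + ω ^ 2) / (2 * Real.pi ^ 2) ≤ (1 - Real.cos (θ + ω)) + (1 - Real.cos ω) := by
  have k : ∀ u : ℝ, ‖ee u - 1‖ ^ 2 = 2 * (1 - Real.cos u) := by
    intro u
    rw [Complex.sq_norm, Complex.normSq_apply]
    simp only [ee, Complex.sub_re, Complex.sub_im, Complex.exp_ofReal_mul_I_re,
      Complex.exp_ofReal_mul_I_im, Complex.one_re, Complex.one_im]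
    nlinarith [Real.sin_sq_add_cos_sq u]
  have h : ‖ee θ - 1‖ ≤ ‖ee (θ + ω) - 1‖ + ‖ee ω - 1‖ := by
    calc ‖ee θ - 1‖ = ‖ee ω * (ee θ - 1)‖ := by rw [norm_mul, norm_ee, one_mul]
      _ = ‖(ee (θ + ω) - 1) - (ee ω - 1)‖ := by rw [ee_add]; ring_nf
      _ ≤ _ := norm_sub_le _ _
  have h2 := pow_le_pow_left₀ (norm_nonneg _) h 2
  have a1 := Real.cos_le_one_sub_mul_cos_sq hθ
  have a2 := Real.cos_le_one_sub_mul_cos_sq hω
  have e1 := k θ
  have e2 := k (θ + ω)
  have e3 := k ω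
  have : (θ ^ 2 + ω ^ 2) / (2 * Real.pi ^ 2)
      = (1/4) * (2 / Real.pi ^ 2 * θ ^ 2) + (1/4) * (2 / Real.pi ^ 2 * ω ^ 2) := by
    field_simp; ring
  rw [this]
  nlinarith [sq_nonneg (‖ee (θ + ω) - 1‖ - ‖ee ω - 1‖), Real.cos_le_one ω]

lemma gauss_per {c : ℝ} (hc : 0 < c) :
    ∫ θ, Real.exp (-c * θ ^ 2) ∂per ≤ Real.sqrt (Real.pi / c) := by
  rw [← integral_gaussian c, per]
  exact setIntegral_le_integral (integrable_exp_neg_mul_sq hc)
    (Eventually.of_forall fun x => (Real.exp_pos _).le)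

/-- Bessel's inequality. -/
lemma bessel {G : ℝ → ℂ} (hG : Continuous G) (A : Finset ℤ) :
    ∑ a ∈ A, ‖∫ θ, G θ * ee (-(a : ℝ) * θ) ∂per‖ ^ 2 ≤ 2 * Real.pi * ∫ θ, ‖G θ‖ ^ 2 ∂per := by
  set c : ℤ → ℂ := fun a => ∫ θ, G θ * ee (-(a : ℝ) * θ) ∂per
  set S : ℝ → ℂ := fun θ => ∑ a ∈ A, (starRingEnd ℂ) (c a) * ee (-(a : ℝ) * θ)
  have cS : Continuous S :=
    continuous_finsetSum _ fun a _ => continuous_const.mul (continuous_ee.comp (by fun_prop))
  set X := ∑ a ∈ A, ‖c a‖ ^ 2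
  have hX : ((X : ℝ) : ℂ) = ∫ θ, G θ * S θ ∂per := by
    simp only [S, Finset.mul_sum]
    rw [integral_finsetSum]
    swap
    · exact fun a _ => integrable_per (hG.mul (continuous_const.mul
        (continuous_ee.comp (by fun_prop))))
    simp only [X, Complex.ofReal_sum]
    refine Finset.sum_congr rfl fun a _ => ?_
    have : ∀ θ, G θ * ((starRingEnd ℂ) (c a) * ee (-(a : ℝ) * θ))
        = (starRingEnd ℂ) (c a) * (G θ * ee (-(a : ℝ) * θ)) := fun θ => by ring
    simp_rw [this]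
    rw [integral_const_mul, Complex.ofReal_pow, ← Complex.conj_mul']
  have hS : ∫ θ, ‖S θ‖ ^ 2 ∂per = 2 * Real.pi * X := by
    have : ((∫ θ, ‖S θ‖ ^ 2 ∂per : ℝ) : ℂ) = ((2 * Real.pi * X : ℝ) : ℂ) := by
      rw [← integral_complex_ofReal]
      have e : ∀ θ, ((‖S θ‖ ^ 2 : ℝ) : ℂ) = ∑ a ∈ A, ∑ b ∈ A,
          ((starRingEnd ℂ) (c a) * c b) * ee (((b - a : ℤ) : ℝ) * θ) := by
        intro θ
        rw [Complex.ofReal_pow, ← Complex.mul_conj', map_sum, Finset.sum_mul_sum]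
        refine Finset.sum_congr rfl fun a _ => Finset.sum_congr rfl fun b _ => ?_
        rw [map_mul, Complex.conj_conj, conj_ee,
          show ((b - a : ℤ) : ℝ) * θ = -(a:ℝ) * θ + -(-(b:ℝ) * θ) by push_cast; ring, ee_add]
        ring
      simp_rw [e]
      have ci : ∀ a b : ℤ, Integrable (fun θ => ((starRingEnd ℂ) (c a) * c b)
          * ee (((b - a : ℤ) : ℝ) * θ)) per := fun a b =>
        integrable_per (continuous_const.mul (continuous_ee.comp (by fun_prop)))
      rw [integral_finsetSum _ fun a _ => integrable_finsetSum _ fun b _ => ci a b]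
      push_cast
      simp only [X, Complex.ofReal_sum, Finset.mul_sum]
      refine Finset.sum_congr rfl fun a ha => ?_
      rw [integral_finsetSum _ fun b _ => (by simpa using ci a b)]
      simp_rw [integral_const_mul]
      rw [Finset.sum_eq_single a]
      · have := integral_ee (a - a)
        simp only [sub_self, if_true] at this
        simp only [sub_self]
        push_cast at this ⊢
        rw [this, Complex.conj_mul']; ring
      · intro b _ hb
        have := integral_ee (b - a)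
        rw [if_neg (sub_ne_zero.2 hb)] at this
        push_cast at this
        rw [this, mul_zero]
      · exact fun h => absurd ha h
    exact_mod_cast this
  have hX0 : 0 ≤ X := Finset.sum_nonneg fun a _ => by positivity
  have hle : X ≤ ∫ θ, ‖G θ‖ * ‖S θ‖ ∂per := by
    calc X = ‖((X : ℝ) : ℂ)‖ := by rw [Complex.norm_real, Real.norm_eq_abs, abs_of_nonneg hX0]
      _ = ‖∫ θ, G θ * S θ ∂per‖ := by rw [hX]
      _ ≤ _ := (norm_integral_le_integral_norm _).trans_eq (by simp)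
  -- pointwise arithmetic-geometric mean
  have h2 : ∫ θ, ‖G θ‖ * ‖S θ‖ ∂per
      ≤ ∫ θ, (Real.pi * ‖G θ‖ ^ 2 + (4 * Real.pi)⁻¹ * ‖S θ‖ ^ 2) ∂per := by
    refine integral_mono (integrable_per (by fun_prop)) (integrable_per (by fun_prop)) fun θ => ?_
    have hp := Real.pi_pos
    have : 0 ≤ (2 * Real.pi * ‖G θ‖ - ‖S θ‖) ^ 2 / (4 * Real.pi) := by positivity
    have e : (2 * Real.pi * ‖G θ‖ - ‖S θ‖) ^ 2 / (4 * Real.pi)
        = Real.pi * ‖G θ‖ ^ 2 + (4 * Real.pi)⁻¹ * ‖S θ‖ ^ 2 - ‖G θ‖ * ‖S θ‖ := by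
      field_simp; ring
    linarith
  rw [integral_add (integrable_per (by fun_prop)) (integrable_per (by fun_prop)),
    integral_const_mul, integral_const_mul, hS] at h2
  have e2 : (4 * Real.pi)⁻¹ * (2 * Real.pi * X) = X / 2 := by field_simp; ring
  linarith

end Vale.Agent.P321
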