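import Vale.Agent.P321.Block

/-! Bounds on the kernel of the character sums, and on negative binomial laws. -/

namespace Vale.Agent.P321

open Finset MeasureTheory

lemma mper_le_length : ∀ t, mper t ≤ t.length
  | [] => le_rfl
  | true :: r => by have := mper_le_length r; simp [mper_true]; omega
  | [false] => le_rfl
  | false :: false :: r => by
    have := mper_le_length (false :: r)
    simp [mper_false_false] at this ⊢; omega
  | false :: true :: r => by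
    have := mper_le_length r
    simp [mper_false_true]; omega

/-- A generating-function bound on compositions. -/
lemma tc_mul_le {z : ℝ} (h0 : 0 < z) (h1 : z < 1) : ∀ (k : ℕ) (r : ℤ),
    tc k r * z ^ r ≤ (1 / (1 - z)) ^ k
  | 0, r => by
    rcases lt_trichotomy r 0 with h | h | h
    · simp [tc_of_neg h]
    · simp [h, tc, Nat.multichoose_zero_right]
    · obtain ⟨n, rfl⟩ : ∃ n : ℕ, r = ((n + 1 : ℕ) : ℤ) := ⟨r.toNat - 1, by omega⟩
      rw [tc_natCast, Nat.multichoose_zero_succ]; simp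
  | k + 1, r => by
    rcases lt_or_ge r 0 with h | h
    · have : 0 < 1 - z := by linarith
      simp [tc_of_neg h]; positivity
    obtain ⟨m, rfl⟩ := Int.eq_ofNat_of_zero_le h
    have hs := sum_tc k (m : ℤ) (m + 1)
    rw [tc_of_neg (show (m:ℤ) - ((m + 1 : ℕ) : ℤ) < 0 by push_cast; omega), sub_zero] at hs
    have e : tc (k + 1) (m : ℤ) * z ^ (m : ℤ)
        = ∑ g ∈ range (m + 1), z ^ g * (tc k ((m : ℤ) - g) * z ^ ((m : ℤ) - g)) := by
      rw [← hs, Finset.sum_mul]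
      refine Finset.sum_congr rfl fun g _ => ?_
      rw [zpow_sub₀ h0.ne', zpow_natCast, zpow_natCast]
      field_simp
    rw [e, pow_succ']
    refine le_trans (Finset.sum_le_sum fun g _ =>
      mul_le_mul_of_nonneg_left (tc_mul_le h0 h1 k _) (by positivity)) ?_
    rw [← Finset.sum_mul]
    refine mul_le_mul_of_nonneg_right ?_ (by have : 0 < 1 - z := by linarith
                                             positivity)
    rw [le_div_iff₀ (by linarith)]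
    have := geom_sum_mul_neg z (m + 1)
    nlinarith [pow_pos h0 (m + 1)]

lemma nb_le_one {x : ℝ} (h0 : 0 < x) (h1 : x < 1) (k : ℕ) (r : ℤ) : nb x k r ≤ 1 := by
  have h := tc_mul_le h0 h1 k r
  have hx : 0 < (1 - x) ^ k := pow_pos (by linarith) k
  rw [div_pow, one_pow, le_div_iff₀ hx] at h
  calc nb x k r = tc k r * x ^ r * (1 - x) ^ k := by unfold nb; ring
    _ ≤ 1 := h

lemma nb_nonneg {x : ℝ} (h0 : 0 < x) (h1 : x < 1) (k : ℕ) (r : ℤ) : 0 ≤ nb x k r := by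
  have : 0 ≤ 1 - x := by linarith
  have := tc_nonneg k r
  unfold nb; positivity

/-- Negative binomial large deviations: many failures in few trials. -/
lemma nb_tail {x δ : ℝ} (hx : 0 < x) (hδ : 0 < δ) (hxδ : δ ≤ 1 - x) (k : ℕ) (r : ℤ) :
    nb x k r ≤ Real.exp (-(δ / 2) * r + k) := by
  set z := Real.sqrt x
  have hz0 : 0 < z := Real.sqrt_pos.2 hx
  have hzz : z * z = x := Real.mul_self_sqrt hx.le
  have hz1 : z ≤ 1 - δ / 2 := by
    rw [show z = Real.sqrt x from rfl, Real.sqrt_le_left (by linarith)]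
    nlinarith [sq_nonneg δ]
  have hz : z < 1 := by linarith
  rcases lt_or_ge r 0 with h | h
  · rw [nb, tc_of_neg h]; simp [(Real.exp_pos _).le]
  obtain ⟨m, rfl⟩ := Int.eq_ofNat_of_zero_le h
  have t := tc_mul_le hz0 hz k (m : ℤ)
  rw [zpow_natCast] at t
  have e : nb x k (m : ℤ) = (tc k (m : ℤ) * z ^ m) * (1 - x) ^ k * z ^ m := by
    rw [nb, zpow_natCast, show x ^ m = z ^ m * z ^ m by rw [← mul_pow, hzz]]; ring
  rw [e]
  have hx1 : 0 ≤ 1 - x := by linarith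
  calc (tc k (m : ℤ) * z ^ m) * (1 - x) ^ k * z ^ m
      ≤ (1 / (1 - z)) ^ k * (1 - x) ^ k * z ^ m := by gcongr
    _ = (1 + z) ^ k * z ^ m := by
        rw [← mul_pow, ← hzz]
        congr 2
        have : (1 - z) ≠ 0 := by linarith
        field_simp; ring
    _ ≤ Real.exp (1:ℝ) ^ k * Real.exp (-(δ / 2)) ^ m := by
        gcongr
        · have := Real.add_one_le_exp (1:ℝ); linarith
        · exact hz1.trans (by have := Real.add_one_le_exp (-(δ / 2)); linarith)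
    _ = _ := by
        rw [← Real.exp_nat_mul, ← Real.exp_nat_mul, ← Real.exp_add]; congr 1; push_cast; ring

/-- The mode of a negative binomial law. -/
lemma nb_mode {R l : ℕ} (hR : 1 ≤ R) (hl : 1 ≤ l) :
    (l : ℝ) / (R + l : ℕ) / (4 * Real.sqrt (R + l : ℕ))
      ≤ nb ((R : ℝ) / (R + l : ℕ)) (l + 1) (R : ℤ) := by
  have h := binom_lower hR hl
  have hn : (0:ℝ) < (R + l : ℕ) := by exact_mod_cast (by omega : 0 < R + l)
  have e : (1:ℝ) - (R : ℝ) / (R + l : ℕ) = (l : ℝ) / (R + l : ℕ) := by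
    rw [one_sub_div hn.ne']; congr 1; push_cast; ring
  rw [nb, tc_natCast, e, zpow_natCast, Nat.multichoose_eq,
    show l + 1 + R - 1 = R + l by omega, pow_succ']
  calc (l : ℝ) / (R + l : ℕ) / (4 * Real.sqrt (R + l : ℕ))
      = (l : ℝ) / (R + l : ℕ) * (1 / (4 * Real.sqrt (R + l : ℕ))) := by ring
    _ ≤ (l : ℝ) / (R + l : ℕ) * (((R + l).choose R : ℝ) * ((R : ℝ) / (R + l : ℕ)) ^ R
          * ((l : ℝ) / (R + l : ℕ)) ^ l) := mul_le_mul_of_nonneg_left h (by positivity)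
    _ = _ := by ring

lemma lin_eq_sum (w v : Bool → ℂ) : ∀ (A : ℕ → ℂ) (s : List Bool),
    lin A w v s = ∑ i ∈ range s.length, A i * wprod w (s.take i) * v (s.getD i false)
  | A, [] => by simp [lin]
  | A, x :: s => by
    rw [lin, lin_eq_sum w v _ s, List.length_cons, Finset.sum_range_succ']
    simp [wprod, Finset.mul_sum]
    rw [add_comm]
    congr 1
    exact Finset.sum_congr rfl fun i _ => by ring

lemma wprod_append (w : Bool → ℂ) : ∀ u v, wprod w (u ++ v) = wprod w u * wprod w v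
  | [], v => by simp [wprod]
  | x :: u, v => by simp [wprod, wprod_append w u v, mul_assoc]

/-- The two step characters; `sg` selects the parity twist. -/
noncomputable def wch (sg : Bool) (θ : ℝ) (b : Bool) : ℂ :=
  if b then (if sg then 1 else -1) * ee (θ / 2) else ee θ

lemma norm_wch (sg : Bool) (θ : ℝ) (b : Bool) : ‖wch sg θ b‖ = 1 := by
  cases sg <;> cases b <;> simp [wch, norm_ee]

lemma wprod_wch (sg : Bool) (θ : ℝ) : ∀ s : List Bool,
    wprod (wch sg θ) s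
      = (if sg then 1 else -1) ^ cnt s * ee (((s.length : ℝ) - (cnt s : ℝ) / 2) * θ)
  | [] => by simp [wprod, cnt, ee_zero]
  | x :: s => by
    rw [wprod, wprod_wch sg θ s]
    cases x
    · simp only [wch, cnt, Bool.false_eq_true, if_false, zero_add, List.length_cons]
      rw [mul_left_comm, ← ee_add]; congr 2; push_cast; ring
    · simp only [wch, cnt, if_true, List.length_cons, pow_add, pow_one]
      rw [show ((((s.length + 1 : ℕ)) : ℝ) - ((1 + cnt s : ℕ) : ℝ) / 2) * θ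
        = θ / 2 + ((s.length : ℝ) - (cnt s : ℝ) / 2) * θ by push_cast; ring, ee_add]
      ring

/-- Decay of a product of powers of `gphi`. -/
lemma phi_decay {x δ : ℝ} (hδ : 0 < δ) (hx0 : δ ≤ x) (hx1 : δ ≤ 1 - x) {L : ℕ} (hL : 1 ≤ L)
    {θ ω : ℝ} (hθ : |θ| ≤ Real.pi) (hω : |ω| ≤ Real.pi) {e1 e0 : ℕ} {E : ℝ} (hE : 0 ≤ E)
    (h1 : E ≤ e1) (h0 : E ≤ e0) :
    ‖gphi x L (θ + ω)‖ ^ e1 * ‖gphi x L ω‖ ^ e0
      ≤ Real.exp (-(δ ^ 3 / (2 * Real.pi ^ 2)) * E * (θ ^ 2 + ω ^ 2)) := by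
  have hx : 0 ≤ x := by linarith
  have hx' : x < 1 := by linarith
  have d1 := gphi_decay hx hx' hL (θ + ω)
  have d0 := gphi_decay hx hx' hL ω
  have hk : δ ^ 3 ≤ (1 - x) ^ 2 * x := by
    calc δ ^ 3 = δ ^ 2 * δ := by ring
      _ ≤ (1 - x) ^ 2 * x :=
        mul_le_mul (pow_le_pow_left₀ hδ.le hx1 2) hx0 hδ.le (sq_nonneg _)
  have c1 : 0 ≤ 1 - Real.cos (θ + ω) := by linarith [Real.cos_le_one (θ + ω)]
  have c0 : 0 ≤ 1 - Real.cos ω := by linarith [Real.cos_le_one ω]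
  calc ‖gphi x L (θ + ω)‖ ^ e1 * ‖gphi x L ω‖ ^ e0
      ≤ Real.exp (-((1 - x) ^ 2 * x) * (1 - Real.cos (θ + ω))) ^ e1
          * Real.exp (-((1 - x) ^ 2 * x) * (1 - Real.cos ω)) ^ e0 := by gcongr
    _ ≤ _ := by
        rw [← Real.exp_nat_mul, ← Real.exp_nat_mul, ← Real.exp_add]
        refine Real.exp_le_exp.2 ?_
        have h2 := cos_two hθ hω
        have a1 : δ ^ 3 * E * (1 - Real.cos (θ + ω))
            ≤ (1 - x) ^ 2 * x * e1 * (1 - Real.cos (θ + ω)) := by gcongr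
        have a0 : δ ^ 3 * E * (1 - Real.cos ω) ≤ (1 - x) ^ 2 * x * e0 * (1 - Real.cos ω) := by
          gcongr
        have a2 := mul_le_mul_of_nonneg_left h2 (show 0 ≤ δ ^ 3 * E by positivity)
        rw [show -(δ ^ 3 / (2 * Real.pi ^ 2)) * E * (θ ^ 2 + ω ^ 2)
          = -(δ ^ 3 * E * ((θ ^ 2 + ω ^ 2) / (2 * Real.pi ^ 2))) by ring]
        linarith

lemma gphi_zero {x : ℝ} (h0 : 0 ≤ x) (h1 : x ≤ 1) (L : ℕ) :
    ∃ P : ℝ, gphi x L 0 = (P : ℂ) ∧ 1 - x ≤ P ∧ P ≤ 1 := by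
  refine ⟨∑ g ∈ range (L + 1), (1 - x) * x ^ g, ?_, ?_, ?_⟩
  · simp [gphi, ee_zero]
  · refine le_trans (le_of_eq (by simp)) (Finset.single_le_sum
      (f := fun g => (1 - x) * x ^ g) (fun g _ => mul_nonneg (by linarith) (pow_nonneg h0 g))
      (Finset.mem_range.2 (Nat.succ_pos L)))
  · rw [← Finset.mul_sum]
    have := geom_sum_mul_neg x (L + 1)
    nlinarith [pow_nonneg h0 (L + 1)]

lemma kernel_twist {δ ρ θ u K P : ℝ} {f1 f0 : ℂ} (hδ : 0 < δ) (hδ1 : δ ≤ 1) (hρ0 : δ ≤ ρ)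
    (hρ1 : δ ≤ 1 - ρ) (hP0 : δ ≤ P) (hP1 : P ≤ 1) (hK : K = 4 / δ ^ 2) (hK4 : 4 ≤ K)
    (hKu : K * u ≤ δ ^ 2 / 25) (hu1 : u ≤ 1) (hθu : |θ| ≤ u)
    (l1 : ‖f1 - P‖ ≤ K * u)
    (l0 : ‖f0 - P‖ ≤ K * u) :
    |θ| ≤ K * ‖f1 * mean1 ρ (wch false θ) - f0‖ ∧
    ∀ b, ‖wch false θ b - mean1 ρ (wch false θ)‖ ≤ K * ‖f1 * mean1 ρ (wch false θ) - f0‖ := by
  have o1 := norm_ee_sub_one_le θ
  have o2 := norm_ee_sub_one_le (θ / 2)
  rw [abs_div, abs_two] at o2
  set κ := mean1 ρ (wch false θ)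
  have hk : ‖κ - ((1 - 2 * ρ : ℝ) : ℂ)‖ ≤ 2 * |θ| := by
    have : κ - ((1 - 2 * ρ : ℝ) : ℂ)
        = -((ρ : ℂ) * (ee (θ / 2) - 1)) + ((1 - ρ : ℝ) : ℂ) * (ee θ - 1) := by
      simp [κ, mean1, wch]; ring
    rw [this]
    refine (norm_add_le _ _).trans ?_
    rw [norm_neg, norm_mul, norm_mul, Complex.norm_real, Complex.norm_real, Real.norm_eq_abs,
      Real.norm_eq_abs, abs_of_nonneg (by linarith : (0:ℝ) ≤ ρ),
      abs_of_nonneg (by linarith : (0:ℝ) ≤ 1 - ρ)]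
    nlinarith [abs_nonneg θ]
  have hkn : ‖κ‖ ≤ 1 := by
    refine (norm_add_le _ _).trans ?_
    rw [norm_mul, norm_mul, norm_wch, norm_wch, ← Complex.ofReal_one, ← Complex.ofReal_sub,
      Complex.norm_real, Complex.norm_real, Real.norm_eq_abs, Real.norm_eq_abs,
      abs_of_nonneg (by linarith : (0:ℝ) ≤ ρ), abs_of_nonneg (by linarith : (0:ℝ) ≤ 1 - ρ)]
    linarith
  have eD : f1 * κ - f0 = -((2 * ρ * P : ℝ) : ℂ)
      + ((f1 - P) * κ + (P : ℂ) * (κ - ((1 - 2 * ρ : ℝ) : ℂ)) + -(f0 - P)) := by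
    push_cast; ring
  have low : δ ^ 2 ≤ ‖f1 * κ - f0‖ := by
    have hmain : ‖-((2 * ρ * P : ℝ) : ℂ)‖ = 2 * ρ * P := by
      rw [norm_neg, Complex.norm_real, Real.norm_eq_abs, abs_of_nonneg]
      have : 0 ≤ ρ := by linarith
      have : 0 ≤ P := by linarith
      positivity
    have herr : ‖(f1 - P) * κ + (P : ℂ) * (κ - ((1 - 2 * ρ : ℝ) : ℂ)) + -(f0 - P)‖
        ≤ K * u + 2 * u + K * u := by
      refine (norm_add₃_le).trans ?_
      rw [norm_mul, norm_mul, norm_neg, Complex.norm_real, Real.norm_eq_abs,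
        abs_of_nonneg (by linarith : 0 ≤ P)]
      exact add_le_add (add_le_add ((mul_le_of_le_one_right (norm_nonneg _) hkn).trans l1)
        (((mul_le_of_le_one_left (norm_nonneg _) hP1).trans hk).trans
          (mul_le_mul_of_nonneg_left hθu zero_le_two))) l0
    have h3 := norm_sub_norm_le (-((2 * ρ * P : ℝ) : ℂ))
      (-((f1 - P) * κ + (P : ℂ) * (κ - ((1 - 2 * ρ : ℝ) : ℂ)) + -(f0 - P)))
    rw [sub_neg_eq_add, ← eD, hmain, norm_neg] at h3
    have : δ ^ 2 ≤ ρ * P := by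
      rw [sq]; exact mul_le_mul hρ0 hP0 hδ.le (by linarith)
    nlinarith
  have hKD : 4 ≤ K * ‖f1 * κ - f0‖ := by
    calc (4:ℝ) = K * δ ^ 2 := by subst hK; field_simp
      _ ≤ _ := mul_le_mul_of_nonneg_left low (by positivity)
  refine ⟨by linarith, fun b => ?_⟩
  exact (norm_sub_le _ _).trans (by rw [norm_wch]; linarith)

lemma kernel_plain {δ ρ θ u K P g : ℝ} {f1 f0 : ℂ} (hδ : 0 < δ) (hδ1 : δ ≤ 1) (hρ0 : δ ≤ ρ)
    (hρ1 : δ ≤ 1 - ρ) (hP0 : δ ≤ P) (hP1 : P ≤ 1) (hK : K = 4 / δ ^ 2) (hK4 : 4 ≤ K)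
    (hKu : K * u ≤ δ ^ 2 / 25) (hu1 : u ≤ 1) (hθu : |θ| ≤ u)
    (l1 : ‖f1 - P‖ ≤ K * u)
    (hg : 0 ≤ g) (t3 : ‖f1 - f0 - (θ * g : ℝ) * Complex.I‖ ≤ K * (|θ| * u)) :
    |θ| ≤ K * ‖f1 * mean1 ρ (wch true θ) - f0‖ ∧
    ∀ b, ‖wch true θ b - mean1 ρ (wch true θ)‖ ≤ K * ‖f1 * mean1 ρ (wch true θ) - f0‖ := by
  have o1 := norm_ee_sub_one_le θ
  have o2 := norm_ee_sub_one_le (θ / 2)
  rw [abs_div, abs_two] at o2
  have t1 := norm_ee_sub_le θ
  have t2 := norm_ee_sub_le (θ / 2)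
  set κ := mean1 ρ (wch true θ)
  set μ : ℝ := 1 - ρ / 2
  have hk1 : ‖κ - 1‖ ≤ |θ| := by
    have : κ - 1 = (ρ : ℂ) * (ee (θ / 2) - 1) + ((1 - ρ : ℝ) : ℂ) * (ee θ - 1) := by
      simp [κ, mean1, wch]; ring
    rw [this]
    refine (norm_add_le _ _).trans ?_
    rw [norm_mul, norm_mul, Complex.norm_real, Complex.norm_real, Real.norm_eq_abs,
      Real.norm_eq_abs, abs_of_nonneg (by linarith : (0:ℝ) ≤ ρ),
      abs_of_nonneg (by linarith : (0:ℝ) ≤ 1 - ρ)]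
    nlinarith [abs_nonneg θ]
  have hk2 : ‖κ - 1 - ((θ * μ : ℝ) : ℂ) * Complex.I‖ ≤ 2 * θ ^ 2 := by
    have : κ - 1 - ((θ * μ : ℝ) : ℂ) * Complex.I
        = (ρ : ℂ) * (ee (θ / 2) - 1 - ((θ / 2 : ℝ) : ℂ) * Complex.I)
          + ((1 - ρ : ℝ) : ℂ) * (ee θ - 1 - (θ : ℂ) * Complex.I) := by
      simp [κ, mean1, wch, μ]; ring
    rw [this]
    refine (norm_add_le _ _).trans ?_
    rw [norm_mul, norm_mul, Complex.norm_real, Complex.norm_real, Real.norm_eq_abs,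
      Real.norm_eq_abs, abs_of_nonneg (by linarith : (0:ℝ) ≤ ρ),
      abs_of_nonneg (by linarith : (0:ℝ) ≤ 1 - ρ)]
    nlinarith [sq_nonneg θ]
  have eD : f1 * κ - f0 = ((θ * (P * μ + g) : ℝ) : ℂ) * Complex.I
      + ((f1 - P) * (κ - 1) + (P : ℂ) * (κ - 1 - ((θ * μ : ℝ) : ℂ) * Complex.I)
        + (f1 - f0 - (θ * g : ℝ) * Complex.I)) := by
    push_cast; ring
  have hm : δ / 2 ≤ P * μ + g := by
    have : δ * (1 / 2) ≤ P * μ :=
      mul_le_mul hP0 (by simp [μ]; linarith) (by norm_num) (by linarith)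
    linarith
  have hmain : ‖((θ * (P * μ + g) : ℝ) : ℂ) * Complex.I‖ = |θ| * (P * μ + g) := by
    rw [norm_mul, Complex.norm_I, mul_one, Complex.norm_real, Real.norm_eq_abs, abs_mul,
      abs_of_nonneg (by linarith : 0 ≤ P * μ + g)]
  have herr : ‖(f1 - P) * (κ - 1) + (P : ℂ) * (κ - 1 - ((θ * μ : ℝ) : ℂ) * Complex.I)
        + (f1 - f0 - (θ * g : ℝ) * Complex.I)‖
      ≤ K * u * |θ| + 2 * (|θ| * u) + K * (|θ| * u) := by
    refine (norm_add₃_le).trans ?_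
    rw [norm_mul, norm_mul, Complex.norm_real, Real.norm_eq_abs,
      abs_of_nonneg (by linarith : 0 ≤ P)]
    refine add_le_add (add_le_add
      (mul_le_mul l1 hk1 (norm_nonneg _) ((norm_nonneg _).trans l1)) ?_) t3
    refine ((mul_le_of_le_one_left (norm_nonneg _) hP1).trans hk2).trans ?_
    rw [← sq_abs θ, sq]
    exact mul_le_mul_of_nonneg_left (mul_le_mul_of_nonneg_left hθu (abs_nonneg θ)) zero_le_two
  have h3 := norm_sub_norm_le (((θ * (P * μ + g) : ℝ) : ℂ) * Complex.I)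
    (-((f1 - P) * (κ - 1) + (P : ℂ) * (κ - 1 - ((θ * μ : ℝ) : ℂ) * Complex.I)
      + (f1 - f0 - (θ * g : ℝ) * Complex.I)))
  rw [sub_neg_eq_add, norm_neg, ← eD, hmain] at h3
  have hsm : 4 * (K * u) ≤ δ / 4 := by nlinarith
  have low : δ / 4 * |θ| ≤ ‖f1 * κ - f0‖ := by
    have a1 := mul_le_mul_of_nonneg_left hm (abs_nonneg θ)
    have a2 := mul_le_mul_of_nonneg_left hsm (abs_nonneg θ)
    have a3 : |θ| * u ≤ |θ| * (K * u) :=
      mul_le_mul_of_nonneg_left (le_mul_of_one_le_left ((abs_nonneg θ).trans hθu) (by linarith)) (abs_nonneg θ)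
    have a4 : K * u * |θ| = |θ| * (K * u) := mul_comm _ _
    have a5 : K * (|θ| * u) = |θ| * (K * u) := mul_left_comm _ _ _
    linarith
  have hKD : |θ| ≤ K * ‖f1 * κ - f0‖ := by
    calc |θ| ≤ K * (δ / 4) * |θ| := by
          refine le_mul_of_one_le_left (abs_nonneg θ) ?_
          have : K * (δ / 4) = 1 / δ := by subst hK; field_simp
          rw [this, le_div_iff₀ hδ]; linarith
      _ = K * (δ / 4 * |θ|) := mul_assoc _ _ _
      _ ≤ _ := mul_le_mul_of_nonneg_left low (by positivity)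
  refine ⟨hKD, fun b => le_trans ?_ hKD⟩
  -- both characters are within |θ| of each other
  have hd : ‖ee θ - ee (θ / 2)‖ ≤ |θ| / 2 := by
    calc ‖ee θ - ee (θ / 2)‖ = ‖ee (θ / 2) * (ee (θ / 2) - 1)‖ := by
          rw [mul_sub, ← ee_add, mul_one, add_halves]
      _ ≤ |θ| / 2 := by rw [norm_mul, norm_ee, one_mul]; exact o2
  have : wch true θ b - κ = (if b then -((1 - ρ : ℝ) : ℂ) else (ρ : ℂ)) * (ee θ - ee (θ / 2)) := by
    cases b <;> simp [κ, mean1, wch] <;> ring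
  rw [this, norm_mul]
  refine (mul_le_of_le_one_left (norm_nonneg _) ?_).trans (hd.trans (by linarith [abs_nonneg θ]))
  cases b <;> simp [Complex.norm_real, abs_le, ← Complex.ofReal_one, ← Complex.ofReal_sub] <;>
    constructor <;> linarith

/-- The effective step is bounded away from resonance near the origin. -/
lemma kernel_bound {x δ ρ θ ω : ℝ} (hδ : 0 < δ) (hx0 : δ ≤ x) (hx1 : δ ≤ 1 - x)
    (hρ0 : δ ≤ ρ) (hρ1 : δ ≤ 1 - ρ) (L : ℕ) (sg : Bool)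
    (hsmall : (100 / δ ^ 2) * (|θ| + |ω|) ≤ δ ^ 2) :
    |θ| ≤ (4 / δ ^ 2) * ‖gphi x L (θ + ω) * mean1 ρ (wch sg θ) - gphi x L ω‖ ∧
    ∀ b, ‖wch sg θ b - mean1 ρ (wch sg θ)‖
      ≤ (4 / δ ^ 2) * ‖gphi x L (θ + ω) * mean1 ρ (wch sg θ) - gphi x L ω‖ := by
  have hx : 0 ≤ x := by linarith
  have hx' : x < 1 := by linarith
  have hδ1 : δ ≤ 1 := by linarith
  obtain ⟨P, hP, hP0, hP1⟩ := gphi_zero hx hx'.le L
  set u := |θ| + |ω|
  have hu : |θ| ≤ u ∧ |ω| ≤ u ∧ 0 ≤ u :=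
    ⟨le_add_of_nonneg_right (abs_nonneg _), le_add_of_nonneg_left (abs_nonneg _), by positivity⟩
  set K := 4 / δ ^ 2
  have hK4 : 4 ≤ K := by
    rw [le_div_iff₀ (by positivity)]; nlinarith
  have hKu : K * u ≤ δ ^ 2 / 25 := by
    have : 100 / δ ^ 2 = 25 * K := by ring
    rw [this] at hsmall; linarith
  have hu1 : u ≤ 1 := by nlinarith
  have hinv : 2 / (1 - x) ^ 2 ≤ K / 2 ∧ 4 / (1 - x) ^ 2 ≤ K := by
    have hsq : δ ^ 2 ≤ (1 - x) ^ 2 := pow_le_pow_left₀ hδ.le hx1 2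
    refine ⟨?_, div_le_div_of_nonneg_left (by norm_num) (by positivity) hsq⟩
    refine (div_le_div_of_nonneg_left (by norm_num) (by positivity) hsq).trans_eq ?_
    simp [K]; ring
  set f1 := gphi x L (θ + ω)
  set f0 := gphi x L ω
  have l1 : ‖f1 - P‖ ≤ K * u := by
    rw [← hP]
    refine (gphi_lip hx hx' L _).trans ?_
    calc 2 / (1 - x) ^ 2 * |θ + ω| ≤ K / 2 * u :=
          mul_le_mul hinv.1 (abs_add_le θ ω) (abs_nonneg _) (by positivity)
      _ ≤ _ := by nlinarith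
  have l0 : ‖f0 - P‖ ≤ K * u := by
    rw [← hP]
    refine (gphi_lip hx hx' L _).trans ?_
    calc 2 / (1 - x) ^ 2 * |ω| ≤ K / 2 * u :=
          mul_le_mul hinv.1 hu.2.1 (abs_nonneg _) (by positivity)
      _ ≤ _ := by nlinarith
  cases sg
  · exact kernel_twist hδ hδ1 hρ0 hρ1 (hx1.trans hP0) hP1 rfl hK4 hKu hu1 hu.1 l1 l0
  · exact kernel_plain (g := gmean x L) hδ hδ1 hρ0 hρ1 (hx1.trans hP0) hP1 rfl hK4 hKu hu1 hu.1 l1
      (gmean_nonneg hx hx'.le L)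
      ((gphi_taylor hx hx' L θ ω).trans (mul_le_mul_of_nonneg_right hinv.2 (by positivity)))

end Vale.Agent.P321
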