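import Vale.Agent.P321.Alt
import Mathlib.Analysis.SpecialFunctions.Log.Basic

/-! Exponential tails for superadditive statistics of a trace of `(01)^N`. -/

namespace Vale.Agent.P321

open Finset

variable {q : ℝ}

/-- Exponential moment of a statistic of a trace of `(01)^N`. -/
noncomputable def mom (q : ℝ) (g : ℕ → List Bool → ℝ) (N : ℕ) : ℝ :=
  ∑ t ∈ traces (2 * N), traceProb q (altS N) t * Real.exp (-g N t)

/-- A superadditive statistic, nonnegative on the possible traces. -/
structure Stat (q : ℝ) (g : ℕ → List Bool → ℝ) : Prop where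
  nonneg : ∀ N t, traceProb q (altS N) t ≠ 0 → 0 ≤ g N t
  super : ∀ K M s r, g K s + g M r ≤ g (K + M) (s ++ r)

lemma mom_nonneg (h0 : 0 ≤ q) (h1 : q ≤ 1) (g : ℕ → List Bool → ℝ) (N : ℕ) : 0 ≤ mom q g N :=
  Finset.sum_nonneg fun t _ => mul_nonneg (tp_nonneg h0 h1 _ _) (Real.exp_pos _).le

lemma mom_le_one {g : ℕ → List Bool → ℝ} (h0 : 0 ≤ q) (h1 : q ≤ 1) (hg : Stat q g) (N : ℕ) :
    mom q g N ≤ 1 := by
  refine le_trans (Finset.sum_le_sum fun t _ => ?_)
    (sum_traces_tp (q := q) (altS N) (2 * N) (altS_length N).le).le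
  by_cases h : traceProb q (altS N) t = 0
  · simp [h]
  · exact mul_le_of_le_one_right (tp_nonneg h0 h1 _ _)
      (Real.exp_le_one_iff.2 (neg_nonpos.2 (hg.nonneg N t h)))

lemma mom_add {g : ℕ → List Bool → ℝ} (h0 : 0 ≤ q) (h1 : q ≤ 1) (hg : Stat q g) (K M : ℕ) :
    mom q g (K + M) ≤ mom q g K * mom q g M := by
  have := sum_traces_append (q := q) (altS K) (altS M) (fun t => Real.exp (-g (K + M) t))
  rw [altS_length, altS_length, ← Nat.mul_add, ← altS_add] at this
  rw [mom, this, mom, mom, Finset.sum_mul]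
  refine Finset.sum_le_sum fun s _ => ?_
  rw [mul_assoc, Finset.mul_sum (traces (2 * M)) _ (Real.exp _)]
  refine mul_le_mul_of_nonneg_left (Finset.sum_le_sum fun r _ => ?_) (tp_nonneg h0 h1 _ _)
  rw [mul_left_comm (Real.exp _), ← Real.exp_add]
  refine mul_le_mul_of_nonneg_left (Real.exp_le_exp.2 ?_) (tp_nonneg h0 h1 _ _)
  linarith [hg.super K M s r]

lemma mom_lt_one {g : ℕ → List Bool → ℝ} (h0 : 0 ≤ q) (h1 : q ≤ 1) (hg : Stat q g) (K : ℕ)
    (t0 : List Bool) (ht : 0 < traceProb q (altS K) t0) (hg0 : 0 < g K t0) :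
    mom q g K < 1 := by
  refine lt_of_lt_of_le ?_ (sum_traces_tp (q := q) (altS K) (2 * K) (altS_length K).le).le
  refine Finset.sum_lt_sum (fun t _ => ?_) ⟨t0, ?_, ?_⟩
  · by_cases h : traceProb q (altS K) t = 0
    · simp [h]
    · exact mul_le_of_le_one_right (tp_nonneg h0 h1 _ _)
        (Real.exp_le_one_iff.2 (neg_nonpos.2 (hg.nonneg K t h)))
  · rw [mem_traces, ← altS_length K]
    by_contra hlen
    exact ht.ne' (tp_eq_zero_of_length _ _ (by omega))
  · exact mul_lt_of_lt_one_right ht (Real.exp_lt_one_iff.2 (by linarith))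

lemma mom_pow {g : ℕ → List Bool → ℝ} (h0 : 0 ≤ q) (h1 : q ≤ 1) (hg : Stat q g) (K : ℕ) :
    ∀ j r, mom q g (j * K + r) ≤ mom q g K ^ j
  | 0, r => by simpa using mom_le_one h0 h1 hg r
  | j + 1, r => by
    rw [show (j + 1) * K + r = K + (j * K + r) by ring, pow_succ']
    exact (mom_add h0 h1 hg K _).trans
      (mul_le_mul_of_nonneg_left (mom_pow h0 h1 hg K j r) (mom_nonneg h0 h1 g K))

/-- A statistic is at least linear except with exponentially small probability. -/
lemma stat_tail {g : ℕ → List Bool → ℝ} (h0 : 0 ≤ q) (h1 : q ≤ 1) (hg : Stat q g) {K : ℕ}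
    (hK : 1 ≤ K) (hlt : mom q g K < 1) :
    ∃ ε C γ : ℝ, 0 < ε ∧ 0 < γ ∧ 0 ≤ C ∧ ∀ N : ℕ,
      ∑ t ∈ (traces (2 * N)).filter (fun t => g N t < ε * N + 1), traceProb q (altS N) t
        ≤ C * Real.exp (-γ * N) := by
  set κ := max (mom q g K) (1 / 2)
  have hκ0 : 0 < κ := lt_max_of_lt_right (by norm_num)
  have hκ1 : κ < 1 := max_lt hlt (by norm_num)
  set lam := -Real.log κ
  have hlam : 0 < lam := neg_pos.2 (Real.log_neg hκ0 hκ1)
  have hK0 : (0:ℝ) < K := by exact_mod_cast hK
  refine ⟨lam / (2 * K), Real.exp 1 * Real.exp lam, lam / (2 * K), by positivity, by positivity,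
    by positivity, fun N => ?_⟩
  set S := (traces (2 * N)).filter (fun t => g N t < lam / (2 * K) * N + 1)
  have hmom : mom q g N ≤ Real.exp lam * Real.exp (-(lam / K) * N) := by
    have hN : N = N / K * K + N % K := by rw [Nat.div_add_mod']
    calc mom q g N ≤ mom q g K ^ (N / K) := by
          conv_lhs => rw [hN]
          exact mom_pow h0 h1 hg K _ _
      _ ≤ κ ^ (N / K) := pow_le_pow_left₀ (mom_nonneg h0 h1 g K) (le_max_left _ _) _
      _ = Real.exp (-lam * ((N / K : ℕ) : ℝ)) := by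
          rw [show -lam = Real.log κ by simp [lam], mul_comm, Real.exp_nat_mul, Real.exp_log hκ0]
      _ ≤ _ := by
          rw [← Real.exp_add]
          refine Real.exp_le_exp.2 ?_
          have : (N:ℝ) / K ≤ ((N / K : ℕ) : ℝ) + 1 := by
            rw [div_le_iff₀ hK0]
            have h := Nat.lt_div_mul_add (a := N) (show 0 < K by omega)
            have : (N:ℝ) ≤ ((N / K : ℕ) : ℝ) * K + K := by exact_mod_cast h.le
            linarith
          have := mul_le_mul_of_nonneg_left this hlam.le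
          rw [show -(lam / K) * N = -(lam * (N / K)) by ring]
          linarith
  calc ∑ t ∈ S, traceProb q (altS N) t
      ≤ ∑ t ∈ S, Real.exp (lam / (2 * K) * N + 1) * (traceProb q (altS N) t * Real.exp (-g N t)) := by
        refine Finset.sum_le_sum fun t ht => ?_
        rw [mul_left_comm, ← Real.exp_add]
        refine le_mul_of_one_le_right (tp_nonneg h0 h1 _ _) (Real.one_le_exp ?_)
        linarith [(Finset.mem_filter.1 ht).2]
    _ ≤ Real.exp (lam / (2 * K) * N + 1) * mom q g N := by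
        rw [← Finset.mul_sum]
        refine mul_le_mul_of_nonneg_left ?_ (Real.exp_pos _).le
        exact Finset.sum_le_sum_of_subset_of_nonneg (Finset.filter_subset _ _)
          fun t _ _ => mul_nonneg (tp_nonneg h0 h1 _ _) (Real.exp_pos _).le
    _ ≤ Real.exp (lam / (2 * K) * N + 1) * (Real.exp lam * Real.exp (-(lam / K) * N)) :=
        mul_le_mul_of_nonneg_left hmom (Real.exp_pos _).le
    _ = _ := by
        simp only [← Real.exp_add]
        congr 1; field_simp; ring

lemma sum_union_le' {A B : Finset (List Bool)} {f : List Bool → ℝ} (hf : ∀ t, 0 ≤ f t) :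
    ∑ t ∈ A ∪ B, f t ≤ ∑ t ∈ A, f t + ∑ t ∈ B, f t := by
  rw [← Finset.sum_union_inter]
  exact le_add_of_nonneg_right (Finset.sum_nonneg fun t _ => hf t)

/-- The slack statistic. -/
def gR (N : ℕ) (t : List Bool) : ℝ := ((N : ℤ) - mper t : ℤ)

/-- The traces on which every statistic is linear. -/
def Good (ε : ℝ) (N : ℕ) (t : List Bool) : Prop :=
  ε * N ≤ nD t ∧ ε * N ≤ nE t ∧ ε * N ≤ gR N t

noncomputable instance (ε : ℝ) (N : ℕ) (t : List Bool) : Decidable (Good ε N t) :=
  Classical.propDecidable _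

lemma slack_nonneg_of_ne_zero (hq : q ≠ 0) {N : ℕ} {t : List Bool}
    (h : traceProb q (altS N) t ≠ 0) : (0:ℤ) ≤ (N : ℤ) - mper t := by
  by_contra hc
  exact h (by rw [tp_alt hq, tc_of_neg (not_le.1 hc), mul_zero])

lemma stat_D (hq : q ≠ 0) : Stat q (fun _ t => (nD t : ℝ)) ∧ Stat q (fun _ t => (nE t : ℝ))
    ∧ Stat q gR := by
  refine ⟨⟨fun N t _ => by positivity, fun K M s r => ?_⟩,
    ⟨fun N t _ => by positivity, fun K M s r => ?_⟩, ⟨fun N t h => ?_, fun K M s r => ?_⟩⟩
  · exact_mod_cast (nD_append s r).1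
  · exact_mod_cast (nD_append s r).2
  · unfold gR; exact_mod_cast slack_nonneg_of_ne_zero hq h
  · have := mper_append_le s r
    unfold gR
    push_cast
    have : (mper (s ++ r) : ℝ) ≤ mper s + mper r := by exact_mod_cast this
    linarith

/-- Traces of the two compared strings are rarely bad. -/
lemma bad_small (h0 : 0 < q) (h1 : q < 1) :
    ∃ ε C γ : ℝ, 0 < ε ∧ ε ≤ 1 ∧ 0 < γ ∧ 0 ≤ C ∧ ∀ a c : ℕ,
      ∑ t ∈ (traces (2 * (a + c) + 1)).filter (fun t => ¬ Good ε (a + c) t),
          traceProb q (insS a c) t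
        ≤ C * Real.exp (-γ * (a + c : ℕ)) := by
  have hq : q ≠ 0 := h0.ne'
  have hp : (0:ℝ) < 1 - q := by linarith
  obtain ⟨sD, sE, sR⟩ := stat_D (q := q) hq
  have pD : 0 < traceProb q (altS 1) [false, true] := by
    have e : traceProb q (altS 1) [false, true] = (1 - q) * (1 - q) := by
      simp [altS, tp_cons_cons]
    rw [e]; positivity
  have pE : 0 < traceProb q (altS 2) [false, false] := by
    have e : traceProb q (altS 2) [false, false] = q ^ 2 * (1 - q) ^ 2 := by
      simp [altS, tp_cons_cons]; ring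
    rw [e]; positivity
  have pR : 0 < traceProb q (altS 1) [] := by
    have e : traceProb q (altS 1) [] = q * q := by simp [altS]
    rw [e]; positivity
  obtain ⟨e1, C1, g1, he1, hg1, hC1, t1⟩ := stat_tail h0.le h1.le sD le_rfl
    (mom_lt_one h0.le h1.le sD 1 _ pD (by simp [nD]))
  obtain ⟨e2, C2, g2, he2, hg2, hC2, t2⟩ := stat_tail h0.le h1.le sE (K := 2) (by norm_num)
    (mom_lt_one h0.le h1.le sE 2 _ pE (by simp [nE]))
  obtain ⟨e3, C3, g3, he3, hg3, hC3, t3⟩ := stat_tail h0.le h1.le sR le_rfl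
    (mom_lt_one h0.le h1.le sR 1 _ pR (by simp [gR, mper]))
  refine ⟨min (min e1 e2) (min e3 1), q⁻¹ * (C1 + C2 + C3), min g1 (min g2 g3),
    by simp [he1, he2, he3], le_trans (min_le_right _ _) (min_le_right _ _),
    by simp [hg1, hg2, hg3], by positivity, fun a c => ?_⟩
  set ε := min (min e1 e2) (min e3 1)
  set M := a + c + 1
  have hsub : (traces (2 * (a + c) + 1)).filter (fun t => ¬ Good ε (a + c) t)
      ⊆ (traces (2 * M)).filter (fun t => (nD t : ℝ) < e1 * M + 1)
        ∪ (traces (2 * M)).filter (fun t => (nE t : ℝ) < e2 * M + 1)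
        ∪ (traces (2 * M)).filter (fun t => gR M t < e3 * M + 1) := by
    intro t ht
    rw [mem_filter, mem_traces] at ht
    have hlen : t.length ≤ 2 * M := by omega
    simp only [mem_union, mem_filter, mem_traces, hlen, true_and]
    by_contra hc
    push Not at hc
    obtain ⟨⟨h1', h2'⟩, h3'⟩ := hc
    refine ht.2 ⟨?_, ?_, ?_⟩
    all_goals
      have hM : ((a + c : ℕ) : ℝ) + 1 = M := by simp [M]
      have hN : (0:ℝ) ≤ (a + c : ℕ) := Nat.cast_nonneg _
    · have : ε ≤ e1 := (min_le_left _ _).trans (min_le_left _ _)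
      nlinarith
    · have : ε ≤ e2 := (min_le_left _ _).trans (min_le_right _ _)
      nlinarith
    · have : ε ≤ e3 := (min_le_right _ _).trans (min_le_left _ _)
      have : gR M t = gR (a + c) t + 1 := by simp [gR, M]; ring
      nlinarith
  have hb : ∀ {C g e : ℝ} {gs : ℕ → List Bool → ℝ},
      (∑ t ∈ (traces (2 * M)).filter (fun t => gs M t < e * M + 1), traceProb q (altS M) t
        ≤ C * Real.exp (-g * M)) → 0 ≤ C → min g1 (min g2 g3) ≤ g →
      ∑ t ∈ (traces (2 * M)).filter (fun t => gs M t < e * M + 1), traceProb q (altS M) t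
        ≤ C * Real.exp (-(min g1 (min g2 g3)) * (a + c : ℕ)) := by
    intro C g e gs h hC hg
    refine h.trans (mul_le_mul_of_nonneg_left (Real.exp_le_exp.2 ?_) hC)
    have : 0 < min g1 (min g2 g3) := by simp [hg1, hg2, hg3]
    simp only [M]; push_cast
    nlinarith [Nat.cast_nonneg (α := ℝ) a, Nat.cast_nonneg (α := ℝ) c]
  have nn := fun t => tp_nonneg (q := q) h0.le h1.le (altS M) t
  calc _ ≤ ∑ t ∈ (traces (2 * (a + c) + 1)).filter (fun t => ¬ Good ε (a + c) t),
        q⁻¹ * traceProb q (altS M) t := Finset.sum_le_sum fun t _ => tp_insS_le h0 h1.le a c t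
    _ ≤ q⁻¹ * (C1 * Real.exp (-(min g1 (min g2 g3)) * (a + c : ℕ))
          + C2 * Real.exp (-(min g1 (min g2 g3)) * (a + c : ℕ))
          + C3 * Real.exp (-(min g1 (min g2 g3)) * (a + c : ℕ))) := by
        rw [← Finset.mul_sum]
        refine mul_le_mul_of_nonneg_left ?_ (by positivity)
        refine (Finset.sum_le_sum_of_subset_of_nonneg hsub fun t _ _ => nn t).trans ?_
        refine (sum_union_le' nn).trans (add_le_add ?_ ?_)
        · refine (sum_union_le' nn).trans (add_le_add ?_ ?_)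
          · exact hb (gs := fun _ t => (nD t : ℝ)) (t1 M) hC1 (min_le_left _ _)
          · exact hb (gs := fun _ t => (nE t : ℝ)) (t2 M) hC2
              ((min_le_right _ _).trans (min_le_left _ _))
        · exact hb (gs := gR) (t3 M) hC3 ((min_le_right _ _).trans (min_le_right _ _))
    _ = _ := by ring

end Vale.Agent.P321
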