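import Vale.Agent.P321.Mid
import Vale.Agent.P321.Tail

/-! The average chi-square distance of neighbouring strings `(01)^a 1 (01)^(N-a)`. -/

namespace Vale.Agent.P321

open Finset MeasureTheory Filter

/-- Cauchy-Schwarz on one period with a Gaussian weight. -/
lemma cauchy_gauss (c : ℝ) {f : ℝ → ℂ} (hf : Continuous f) :
    ‖∫ ω, f ω ∂per‖ ^ 2
      ≤ (∫ ω, Real.exp (-c * ω ^ 2) ∂per) * ∫ ω, ‖f ω‖ ^ 2 * Real.exp (c * ω ^ 2) ∂per := by
  set A := ∫ ω, Real.exp (-c * ω ^ 2) ∂per
  set Y := ∫ ω, ‖f ω‖ ^ 2 * Real.exp (c * ω ^ 2) ∂per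
  set X := ∫ ω, ‖f ω‖ ∂per
  have hX : ‖∫ ω, f ω ∂per‖ ≤ X := norm_integral_le_integral_norm _
  have hd : discrim A (-(2 * X)) Y ≤ 0 := by
    refine discrim_le_zero fun t => ?_
    have h : 0 ≤ ∫ ω, ((t * t) * Real.exp (-c * ω ^ 2) + (-(2 * t)) * ‖f ω‖
        + ‖f ω‖ ^ 2 * Real.exp (c * ω ^ 2)) ∂per := by
      refine integral_nonneg fun ω => ?_
      have e : Real.exp (-c * ω ^ 2) * Real.exp (c * ω ^ 2) = 1 := by
        rw [← Real.exp_add]; simp
      have e2 : (t * t) * Real.exp (-c * ω ^ 2) + (-(2 * t)) * ‖f ω‖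
          + ‖f ω‖ ^ 2 * Real.exp (c * ω ^ 2)
          = Real.exp (-c * ω ^ 2) * (t - ‖f ω‖ * Real.exp (c * ω ^ 2)) ^ 2 := by
        linear_combination (2 * t * ‖f ω‖ - ‖f ω‖ ^ 2 * Real.exp (c * ω ^ 2)) * e
      simp only [Pi.zero_apply, e2]
      positivity
    rw [integral_add (integrable_per (by fun_prop)) (integrable_per (by fun_prop)),
      integral_add (integrable_per (by fun_prop)) (integrable_per (by fun_prop)),
      integral_const_mul, integral_const_mul] at h
    linarith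
  have hX2 := pow_le_pow_left₀ (norm_nonneg _) hX 2
  rw [discrim] at hd
  linarith

/-- Constant of the bulk estimate. -/
noncomputable def cMid (δ ε : ℝ) : ℝ :=
  4 / δ ^ 2 * cBlk δ ε * (2 * Real.pi / kap δ ε) * Real.sqrt (Real.pi / kap δ ε)
    / (2 * Real.pi) ^ 3

/-- The strings of length `n` with `d` marks. -/
def cls (n d : ℕ) : Finset (List Bool) := (strings n).filter (fun s => cnt s = d)

lemma mid_class {x δ ε : ℝ} (hδ : 0 < δ) (hε : 0 < ε) (hx0 : δ ≤ x) (hx1 : δ ≤ 1 - x)
    {N n d J R : ℕ} (b : Bool) (hN : 1 ≤ N) (hd : δ * n ≤ d) (hd' : δ * n ≤ (n : ℝ) - d)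
    (hJ : ε * N ≤ J) (hJ1 : 1 ≤ J) (hJn : 2 * J ≤ n) (hn : n ≤ 3 * N)
    (hR : ∀ s ∈ cls n d, (R : ℤ) = (N : ℤ) - mper (dec b s))
    (I : Finset ℕ) (hI : ∀ a ∈ I, a + 1 ≤ N) :
    ∑ s ∈ cls n d, ∑ a ∈ I, (∑ j ∈ Ico J (n - J), zTerm x N a (dec b s) (j + 1)) ^ 2
      ≤ cMid δ ε * n.choose d / (N * Real.sqrt N) := by
  have hx : x ≠ 0 := by linarith
  set κ := kap δ ε
  have hκ : 0 < κ := by simp only [κ, kap]; positivity
  have hN0 : (0:ℝ) < N := by exact_mod_cast hN
  set f : List Bool → ℝ → ℝ → ℂ := fun s θ ω => ∑ j ∈ Ico J (n - J), kTerm x N R b s θ ω j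
  set K := 4 / δ ^ 2 * cBlk δ ε * n.choose d with hKdef
  set L1 := (n - 2 * J) / 2
  set L2 := n - 2 * J - L1
  have pw : ∀ θ ω : ℝ, |θ| ≤ Real.pi → |ω| ≤ Real.pi →
      θ ^ 2 * ∑ s ∈ cls n d, ‖f s θ ω‖ ^ 2 ≤ K * Real.exp (-κ * N * (θ ^ 2 + ω ^ 2)) := by
    intro θ ω hθ hω
    have b1 := fun sg => window_bound hδ hε hx0 hx1 hθ hω (N := N) (Lt := N) (n := n) (d := d)
      (j0 := J) (L := L1) hN hd hd' hJ (by omega)
      (hJ.trans (by exact_mod_cast (by omega : J ≤ n - J - L1))) (by omega) (by omega) hn sg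
    have b2 := fun sg => window_bound hδ hε hx0 hx1 hθ hω (N := N) (Lt := N) (n := n) (d := d)
      (j0 := J + L1) (L := L2) hN hd hd' (hJ.trans (by exact_mod_cast (by omega : J ≤ J + L1)))
      (by omega) (hJ.trans (by exact_mod_cast (by omega : J ≤ n - (J + L1) - L2))) (by omega)
      (by omega) hn sg
    set W1 : Bool → List Bool → ℝ :=
      fun sg s => ‖winS x N J L1 (n - J - L1) sg θ ω ((s.drop J).take L1)‖
    set W2 : Bool → List Bool → ℝ :=
      fun sg s => ‖winS x N (J + L1) L2 (n - (J + L1) - L2) sg θ ω ((s.drop (J + L1)).take L2)‖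
    have hs : ∀ s ∈ cls n d, ‖f s θ ω‖ ^ 2
        ≤ 1 / δ ^ 2 * (W1 true s ^ 2 + W1 false s ^ 2 + W2 true s ^ 2 + W2 false s ^ 2) := by
      intro s hs
      have hlen : s.length = n := mem_strings.1 (Finset.mem_filter.1 hs).1
      set c0 := ((2 * x : ℝ) : ℂ)⁻¹
      have hc0 : ‖c0‖ ≤ 1 / (2 * δ) := by
        simp only [c0, norm_inv, Complex.norm_real, Real.norm_eq_abs]
        rw [abs_of_pos (by linarith), one_div]
        exact inv_anti₀ (by positivity) (by linarith)
      have split : f s θ ω = ∑ l ∈ range L1, kTerm x N R b s θ ω (J + l)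
          + ∑ l ∈ range L2, kTerm x N R b s θ ω (J + L1 + l) := by
        have e1 := Finset.sum_Ico_eq_sum_range (fun j => kTerm x N R b s θ ω j) J (J + L1)
        have e2 := Finset.sum_Ico_eq_sum_range (fun j => kTerm x N R b s θ ω j) (J + L1) (n - J)
        rw [show J + L1 - J = L1 by omega] at e1
        rw [show n - J - (J + L1) = L2 by omega] at e2
        rw [← e1, ← e2, Finset.sum_Ico_consecutive _ (by omega) (by omega)]
      have tri : ∀ (j0 L : ℕ), j0 + L ≤ n → ‖∑ l ∈ range L, kTerm x N R b s θ ω (j0 + l)‖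
          ≤ 1 / (2 * δ) * (‖winS x N j0 L (n - j0 - L) true θ ω ((s.drop j0).take L)‖
            + ‖winS x N j0 L (n - j0 - L) false θ ω ((s.drop j0).take L)‖) := by
        intro j0 L h
        rw [kTerm_window hx N R b s θ ω j0 L (by omega), hlen, norm_mul, norm_mul, norm_mul,
          norm_ee, norm_ee, mul_one, mul_one]
        refine mul_le_mul hc0 ((norm_add_le _ _).trans (le_of_eq ?_)) (norm_nonneg _)
          (by positivity)
        have h1 := norm_wprod (norm_wch true θ) (s.take j0)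
        have h2 := norm_wprod (norm_wch false θ) (s.take j0)
        cases b <;> simp [h1, h2]
      have h12 := (norm_add_le _ _).trans (add_le_add (tri J L1 (by omega)) (tri (J + L1) L2 (by omega)))
      rw [← split] at h12
      refine (pow_le_pow_left₀ (norm_nonneg _) h12 2).trans ?_
      rw [← mul_add, mul_pow, show (1 / (2 * δ)) ^ 2 = 1 / δ ^ 2 * (1 / 4) by field_simp; ring,
        mul_assoc]
      refine mul_le_mul_of_nonneg_left ?_ (by positivity)
      simp only [W1, W2]
      nlinarith [sq_nonneg (‖winS x N J L1 (n - J - L1) true θ ω ((s.drop J).take L1)‖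
          - ‖winS x N J L1 (n - J - L1) false θ ω ((s.drop J).take L1)‖),
        sq_nonneg (‖winS x N (J + L1) L2 (n - (J + L1) - L2) true θ ω ((s.drop (J + L1)).take L2)‖
          - ‖winS x N (J + L1) L2 (n - (J + L1) - L2) false θ ω ((s.drop (J + L1)).take L2)‖),
        sq_nonneg (‖winS x N J L1 (n - J - L1) true θ ω ((s.drop J).take L1)‖
          + ‖winS x N J L1 (n - J - L1) false θ ω ((s.drop J).take L1)‖
          - ‖winS x N (J + L1) L2 (n - (J + L1) - L2) true θ ω ((s.drop (J + L1)).take L2)‖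
          - ‖winS x N (J + L1) L2 (n - (J + L1) - L2) false θ ω ((s.drop (J + L1)).take L2)‖)]
    calc θ ^ 2 * ∑ s ∈ cls n d, ‖f s θ ω‖ ^ 2
        ≤ θ ^ 2 * ∑ s ∈ cls n d,
            1 / δ ^ 2 * (W1 true s ^ 2 + W1 false s ^ 2 + W2 true s ^ 2 + W2 false s ^ 2) :=
          mul_le_mul_of_nonneg_left (Finset.sum_le_sum hs) (sq_nonneg θ)
      _ = 1 / δ ^ 2 * (θ ^ 2 * ∑ s ∈ cls n d, W1 true s ^ 2 + θ ^ 2 * ∑ s ∈ cls n d, W1 false s ^ 2
            + θ ^ 2 * ∑ s ∈ cls n d, W2 true s ^ 2 + θ ^ 2 * ∑ s ∈ cls n d, W2 false s ^ 2) := by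
          rw [← Finset.mul_sum, Finset.sum_add_distrib, Finset.sum_add_distrib,
            Finset.sum_add_distrib]
          ring
      _ ≤ 1 / δ ^ 2 * (cBlk δ ε * n.choose d * Real.exp (-κ * N * (θ ^ 2 + ω ^ 2))
            + cBlk δ ε * n.choose d * Real.exp (-κ * N * (θ ^ 2 + ω ^ 2))
            + cBlk δ ε * n.choose d * Real.exp (-κ * N * (θ ^ 2 + ω ^ 2))
            + cBlk δ ε * n.choose d * Real.exp (-κ * N * (θ ^ 2 + ω ^ 2))) :=
          mul_le_mul_of_nonneg_left
            (add_le_add (add_le_add (add_le_add (b1 true) (b1 false)) (b2 true)) (b2 false))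
            (by positivity)
      _ = _ := by rw [hKdef]; ring
  have hK0 : 0 ≤ K := by
    have := pw 0 0 (by simp [Real.pi_pos.le]) (by simp [Real.pi_pos.le])
    simpa using this
  set c := κ * N / 2
  have hc : 0 < c := by positivity
  set A := ∫ ω, Real.exp (-c * ω ^ 2) ∂per
  have hA0 : 0 ≤ A := integral_nonneg fun _ => (Real.exp_pos _).le
  have hA : A ^ 2 ≤ Real.pi / c := by
    calc A ^ 2 ≤ Real.sqrt (Real.pi / c) ^ 2 := pow_le_pow_left₀ hA0 (gauss_per hc) 2
      _ = _ := Real.sq_sqrt (by positivity)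
  set G : List Bool → ℝ → ℂ := fun s => gMid x N R b s (Ico J (n - J))
  have cG : ∀ s, Continuous (G s) := fun s => continuous_gMid _ _ _ _ _ _
  have cf : ∀ s θ, Continuous (f s θ) := fun s θ =>
    continuous_finsetSum _ fun j _ => continuous_kTerm_snd x N R b s θ j
  have pθ : ∀ θ : ℝ, |θ| ≤ Real.pi →
      ∑ s ∈ cls n d, ‖G s θ‖ ^ 2 ≤ K * (Real.pi / c) * Real.exp (-(κ * N) * θ ^ 2) := by
    intro θ hθ
    calc ∑ s ∈ cls n d, ‖G s θ‖ ^ 2
        ≤ ∑ s ∈ cls n d, θ ^ 2 * (A * ∫ ω, ‖f s θ ω‖ ^ 2 * Real.exp (c * ω ^ 2) ∂per) := by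
          refine Finset.sum_le_sum fun s _ => ?_
          simp only [G, gMid]
          rw [norm_mul, mul_pow]
          refine mul_le_mul ?_ (cauchy_gauss c (cf s θ)) (sq_nonneg _) (sq_nonneg _)
          rw [← sq_abs θ, norm_sub_rev]
          refine pow_le_pow_left₀ (norm_nonneg _) ?_ 2
          exact (norm_ee_sub_one_le (-θ)).trans (le_of_eq (abs_neg θ))
      _ = A * ∫ ω, θ ^ 2 * (∑ s ∈ cls n d, ‖f s θ ω‖ ^ 2) * Real.exp (c * ω ^ 2) ∂per := by
          simp_rw [Finset.mul_sum, Finset.sum_mul]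
          rw [integral_finsetSum _ fun s _ => integrable_per (by have := cf s θ; fun_prop),
            Finset.mul_sum]
          refine Finset.sum_congr rfl fun s _ => ?_
          rw [← integral_const_mul, ← integral_const_mul, ← integral_const_mul]
          congr 1; funext ω; ring
      _ ≤ A * ∫ ω, K * Real.exp (-(κ * N) * θ ^ 2) * Real.exp (-c * ω ^ 2) ∂per := by
          refine mul_le_mul_of_nonneg_left ?_ hA0
          refine integral_mono_ae (integrable_per (by have := fun s => cf s θ; fun_prop))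
            (integrable_per (by fun_prop)) ?_
          filter_upwards [ae_restrict_mem measurableSet_Ioc] with ω hω
          refine (mul_le_mul_of_nonneg_right (pw θ ω hθ (abs_le.2 ⟨hω.1.le, hω.2⟩))
            (Real.exp_pos _).le).trans (le_of_eq ?_)
          rw [mul_assoc K, mul_assoc K, ← Real.exp_add, ← Real.exp_add]
          congr 2; simp only [c]; ring
      _ = A ^ 2 * (K * Real.exp (-(κ * N) * θ ^ 2)) := by rw [integral_const_mul]; ring
      _ ≤ (Real.pi / c) * (K * Real.exp (-(κ * N) * θ ^ 2)) :=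
          mul_le_mul_of_nonneg_right hA (mul_nonneg hK0 (Real.exp_pos _).le)
      _ = _ := by ring
  have p2 : 0 < (2 * Real.pi) := by positivity
  have bes : ∀ s ∈ cls n d,
      (2 * Real.pi) ^ 3 * ∑ a ∈ I, (∑ j ∈ Ico J (n - J), zTerm x N a (dec b s) (j + 1)) ^ 2
        ≤ ∫ θ, ‖G s θ‖ ^ 2 ∂per := by
    intro s hs
    have h := bessel (cG s) (I.map Nat.castEmbedding)
    rw [Finset.sum_map] at h
    refine le_of_mul_le_mul_left (le_trans (le_of_eq ?_) h) p2
    rw [← mul_assoc, Finset.mul_sum]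
    refine Finset.sum_congr rfl fun a ha => ?_
    simp only [Nat.castEmbedding_apply, Int.cast_natCast, G]
    rw [← mid_identity hx le_rfl (hI a ha) b s (hR s hs), Complex.norm_real, Real.norm_eq_abs,
      sq_abs]
    ring
  have main : (2 * Real.pi) ^ 3 * ∑ s ∈ cls n d, ∑ a ∈ I,
        (∑ j ∈ Ico J (n - J), zTerm x N a (dec b s) (j + 1)) ^ 2
      ≤ K * (Real.pi / c) * Real.sqrt (Real.pi / (κ * N)) := by
    rw [Finset.mul_sum]
    refine (Finset.sum_le_sum bes).trans ?_
    rw [← integral_finsetSum _ fun s _ => integrable_per (by have := cG s; fun_prop)]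
    refine (integral_mono_ae (integrable_per (by fun_prop))
      (g := fun θ => K * (Real.pi / c) * Real.exp (-(κ * N) * θ ^ 2))
      (integrable_per (by fun_prop)) ?_).trans ?_
    · filter_upwards [ae_restrict_mem measurableSet_Ioc] with θ hθ
      exact pθ θ (abs_le.2 ⟨hθ.1.le, hθ.2⟩)
    · rw [integral_const_mul]
      exact mul_le_mul_of_nonneg_left (gauss_per (by positivity)) (mul_nonneg hK0 (by positivity))
  rw [← div_div Real.pi κ, Real.sqrt_div (by positivity : 0 ≤ Real.pi / κ)] at main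
  rw [mul_comm ((2 * Real.pi) ^ 3), ← le_div_iff₀ (by positivity)] at main
  refine main.trans (le_of_eq ?_)
  simp only [cMid, hKdef, c, κ]
  field_simp

/-- A position near an end is unlikely to carry the inserted bit. -/
lemma pairW_small {x δ : ℝ} (hδ : 0 < δ) (hx0 : δ ≤ x) (hx1 : δ ≤ 1 - x) {N a n J : ℕ}
    {t : List Bool} {i : ℕ} (ht : t.length = n + 1) (hi : i ≤ n)
    (ho : i ≤ J ∨ n < i + J) (ha : N ≤ 4 * a) (ha' : 2 * a ≤ N)
    (hJ : (J : ℝ) ≤ δ * N / 32 + 1) :
    pairW x N a t i ≤ Real.exp (-δ * N / 16 + 3) := by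
  have hx : 0 < x := by linarith
  have hx' : x < 1 := by linarith
  have hδ1 : δ ≤ 1 / 2 := by linarith
  have n1 := nb_nonneg hx hx' (i + 1) ((a : ℤ) - mper (t.take i))
  have n2 := nb_nonneg hx hx' (t.length - i) ((N : ℤ) - a - mper (t.drop (i + 1)))
  unfold pairW
  rcases ho with h | h
  · refine (mul_le_of_le_one_right n1 (nb_le_one hx hx' _ _)).trans
      ((nb_tail hx hδ hx1 _ _).trans (Real.exp_le_exp.2 ?_))
    have hm : mper (t.take i) ≤ J :=
      (mper_le_length _).trans ((List.length_take_le _ _).trans h)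
    have hm' : (mper (t.take i) : ℝ) ≤ J := by exact_mod_cast hm
    have hi' : (i : ℝ) ≤ J := by exact_mod_cast h
    have ha4 : (N : ℝ) ≤ 4 * a := by exact_mod_cast ha
    push_cast
    nlinarith [mul_le_mul_of_nonneg_left hm' hδ.le, mul_le_mul_of_nonneg_left ha4 hδ.le,
      Nat.cast_nonneg (α := ℝ) J]
  · refine (mul_le_of_le_one_left n2 (nb_le_one hx hx' _ _)).trans
      ((nb_tail hx hδ hx1 _ _).trans (Real.exp_le_exp.2 ?_))
    have hl : t.length - i ≤ J := by omega
    have hm : mper (t.drop (i + 1)) ≤ J :=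
      (mper_le_length _).trans (by rw [List.length_drop]; omega)
    have hm' : (mper (t.drop (i + 1)) : ℝ) ≤ J := by exact_mod_cast hm
    have hl' : ((t.length - i : ℕ) : ℝ) ≤ J := by exact_mod_cast hl
    have ha4 : 2 * (a : ℝ) ≤ N := by exact_mod_cast ha'
    push_cast
    nlinarith [mul_le_mul_of_nonneg_left hm' hδ.le, mul_le_mul_of_nonneg_left ha4 hδ.le,
      mul_nonneg hδ.le (Nat.cast_nonneg (α := ℝ) N), Nat.cast_nonneg (α := ℝ) J]

/-- The whole difference inside one class. -/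
noncomputable def hSum (x : ℝ) (N a : ℕ) (t : List Bool) : ℝ :=
  ∑ i ∈ range t.length, zTerm x N a t i

/-- The middle half of the insertion points. -/
def insI (N : ℕ) : Finset ℕ := Ico (N / 4 + 1) (N / 2)

/-- Constant of the class estimate. -/
noncomputable def cCls (δ : ℝ) : ℝ :=
  2 * cMid δ (δ / 32) + 2 * (36 / δ ^ 2 * Real.exp 6 * (120 * (8 / δ) ^ 5))

lemma rest_le {x δ : ℝ} (hδ : 0 < δ) (hx0 : δ ≤ x) (hx1 : δ ≤ 1 - x) {N a n J : ℕ}
    {t : List Bool} (ht : t.length = n + 1) (hn : n + 1 ≤ 3 * N)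
    (ha : a ∈ insI N) (hJ : (J : ℝ) ≤ δ * N / 32 + 1) :
    |hSum x N a t - ∑ j ∈ Ico J (n - J), zTerm x N a t (j + 1)|
      ≤ (3 * N) * (2 / δ * Real.exp (-δ * N / 16 + 3)) := by
  rw [insI, Finset.mem_Ico] at ha
  have hx : 0 < x := by linarith
  have hx' : x < 1 := by linarith
  set E := Real.exp (-δ * N / 16 + 3)
  have hsub : Ico (J + 1) (n - J + 1) ⊆ range (n + 1) := by
    intro i hi; simp only [Finset.mem_Ico] at hi; simp only [Finset.mem_range]; omega
  rw [hSum, ht, Finset.sum_Ico_add' (fun i => zTerm x N a t i) J (n - J) 1,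
    ← Finset.sum_sdiff hsub, add_sub_cancel_right]
  refine (Finset.abs_sum_le_sum_abs _ _).trans ?_
  refine (Finset.sum_le_card_nsmul _ _ (2 / δ * E) ?_).trans ?_
  · intro i hi
    simp only [Finset.mem_sdiff, Finset.mem_range, Finset.mem_Ico] at hi
    unfold zTerm
    split_ifs with h hb
    all_goals first
      | (rw [abs_zero]; positivity)
      | skip
    all_goals
      have w1 := pairW_small hδ hx0 hx1 ht (by omega) (i := i) (N := N) (a := a) (J := J)
        (by omega) (by omega) (by omega) hJ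
      have w2 := pairW_small hδ hx0 hx1 ht (by omega) (i := i) (N := N) (a := a + 1) (J := J)
        (by omega) (by omega) (by omega) hJ
      have p1 : 0 ≤ pairW x N a t i := mul_nonneg (nb_nonneg hx hx' _ _) (nb_nonneg hx hx' _ _)
      have p2 : 0 ≤ pairW x N (a + 1) t i :=
        mul_nonneg (nb_nonneg hx hx' _ _) (nb_nonneg hx hx' _ _)
      have d1 : |pairW x N a t i - pairW x N (a + 1) t i| ≤ 2 * E :=
        abs_sub_le_iff.2 ⟨by linarith, by linarith⟩
      rw [abs_mul, show 2 / δ * E = δ⁻¹ * (2 * E) by ring]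
      refine mul_le_mul ?_ d1 (abs_nonneg _) (by positivity)
    · rw [abs_one]; exact (one_le_inv₀ hδ).2 (by linarith)
    · rw [abs_inv, abs_of_pos hx]; exact inv_anti₀ hδ hx0
  · rw [nsmul_eq_mul]
    refine mul_le_mul_of_nonneg_right ?_ (by positivity)
    have h1 := Finset.card_le_card (Finset.sdiff_subset (s := range (n + 1))
      (t := Ico (J + 1) (n - J + 1)))
    rw [Finset.card_range] at h1
    exact_mod_cast h1.trans hn

lemma class_bound {x δ : ℝ} (hδ : 0 < δ) (hx0 : δ ≤ x) (hx1 : δ ≤ 1 - x) {N n d R : ℕ}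
    (b : Bool) (hN : 1 ≤ N) (hd : δ * n ≤ d) (hd' : δ * n ≤ (n : ℝ) - d)
    (hn : n + 1 ≤ 3 * N) (hnl : δ * N + 2 ≤ n)
    (hR : ∀ s ∈ cls n d, (R : ℤ) = (N : ℤ) - mper (dec b s)) :
    ∑ s ∈ cls n d, ∑ a ∈ insI N, hSum x N a (dec b s) ^ 2
      ≤ cCls δ * n.choose d / (N * Real.sqrt N) := by
  have hδ1 : δ ≤ 1 / 2 := by linarith
  have hN0 : (0:ℝ) < N := by exact_mod_cast hN
  set J := ⌈δ / 32 * (N:ℝ)⌉₊
  have hJl : δ / 32 * N ≤ (J:ℝ) := Nat.le_ceil _
  have hJu : (J : ℝ) ≤ δ * N / 32 + 1 := by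
    have := Nat.ceil_lt_add_one (show 0 ≤ δ / 32 * (N:ℝ) by positivity)
    have : δ / 32 * (N:ℝ) = δ * N / 32 := by ring
    linarith
  have hJ1 : 1 ≤ J := Nat.one_le_ceil_iff.2 (by positivity)
  have hJn : 2 * J ≤ n := by
    have : (2 * J : ℝ) ≤ n := by
      have := mul_nonneg hδ.le hN0.le
      linarith
    exact_mod_cast this
  have hm := mid_class (ε := δ / 32) hδ (by positivity) hx0 hx1 b hN hd hd' hJl hJ1 hJn
    (by omega) hR (insI N) (fun a ha => by rw [insI, Finset.mem_Ico] at ha; omega)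
  set Rst := (3 * N : ℝ) * (2 / δ * Real.exp (-δ * N / 16 + 3))
  have hrest : (N : ℝ) * Rst ^ 2
      ≤ 36 / δ ^ 2 * Real.exp 6 * (120 * (8 / δ) ^ 5) / (N * Real.sqrt N) := by
    rw [le_div_iff₀ (by positivity)]
    have hv : 0 ≤ δ * (N:ℝ) / 8 := by positivity
    have h5 := Real.pow_div_factorial_le_exp (δ * (N:ℝ) / 8) hv 5
    rw [show ((Nat.factorial 5 : ℕ) : ℝ) = 120 by norm_num [Nat.factorial],
      div_le_iff₀ (by norm_num)] at h5
    have hs : Real.sqrt N ≤ N := by
      rw [Real.sqrt_le_left hN0.le]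
      nlinarith [show (1:ℝ) ≤ N by exact_mod_cast hN]
    have e : Real.exp (-δ * N / 16 + 3) ^ 2 = Real.exp 6 * Real.exp (-(δ * N / 8)) := by
      rw [sq, ← Real.exp_add, ← Real.exp_add]; congr 1; ring
    have h6 : (N:ℝ) ^ 5 * Real.exp (-(δ * N / 8)) ≤ 120 * (8 / δ) ^ 5 := by
      rw [Real.exp_neg, ← div_eq_mul_inv, div_le_iff₀ (Real.exp_pos _)]
      calc (N:ℝ) ^ 5 = (8 / δ) ^ 5 * (δ * N / 8) ^ 5 := by field_simp
        _ ≤ (8 / δ) ^ 5 * (Real.exp (δ * N / 8) * 120) :=
            mul_le_mul_of_nonneg_left h5 (by positivity)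
        _ = _ := by ring
    calc (N : ℝ) * Rst ^ 2 * (N * Real.sqrt N)
        = 36 / δ ^ 2 * Real.exp 6 * ((N:ℝ) ^ 4 * Real.sqrt N * Real.exp (-(δ * N / 8))) := by
          simp only [Rst]; rw [mul_pow, mul_pow, mul_pow, e]; ring
      _ ≤ 36 / δ ^ 2 * Real.exp 6 * ((N:ℝ) ^ 4 * N * Real.exp (-(δ * N / 8))) := by gcongr
      _ = 36 / δ ^ 2 * Real.exp 6 * ((N:ℝ) ^ 5 * Real.exp (-(δ * N / 8))) := by ring
      _ ≤ _ := mul_le_mul_of_nonneg_left h6 (by positivity)
  have hcard : ((insI N).card : ℝ) ≤ N := by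
    rw [insI, Nat.card_Ico]; exact_mod_cast (by omega : N / 2 - (N / 4 + 1) ≤ N)
  calc ∑ s ∈ cls n d, ∑ a ∈ insI N, hSum x N a (dec b s) ^ 2
      ≤ ∑ s ∈ cls n d, ∑ a ∈ insI N,
          (2 * (∑ j ∈ Ico J (n - J), zTerm x N a (dec b s) (j + 1)) ^ 2 + 2 * Rst ^ 2) := by
        refine Finset.sum_le_sum fun s hs => Finset.sum_le_sum fun a ha => ?_
        have hlen : (dec b s).length = n + 1 := by
          rw [dec_length, mem_strings.1 (Finset.mem_filter.1 hs).1]
        have h := rest_le hδ hx0 hx1 hlen hn ha hJu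
        set M := ∑ j ∈ Ico J (n - J), zTerm x N a (dec b s) (j + 1)
        have h2 : (hSum x N a (dec b s) - M) ^ 2 ≤ Rst ^ 2 := by
          rw [← sq_abs]; exact pow_le_pow_left₀ (abs_nonneg _) h 2
        nlinarith [sq_nonneg (hSum x N a (dec b s) - 2 * M)]
    _ = 2 * ∑ s ∈ cls n d, ∑ a ∈ insI N, (∑ j ∈ Ico J (n - J), zTerm x N a (dec b s) (j + 1)) ^ 2
        + 2 * ((n.choose d : ℝ) * ((insI N).card * Rst ^ 2)) := by
        simp only [Finset.sum_add_distrib, Finset.sum_const, nsmul_eq_mul, cls, card_class,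
          ← Finset.mul_sum]
        ring
    _ ≤ 2 * (cMid δ (δ / 32) * n.choose d / (N * Real.sqrt N))
        + 2 * ((n.choose d : ℝ) * ((N:ℝ) * Rst ^ 2)) := by gcongr
    _ ≤ 2 * (cMid δ (δ / 32) * n.choose d / (N * Real.sqrt N)) + 2 * ((n.choose d : ℝ)
        * (36 / δ ^ 2 * Real.exp 6 * (120 * (8 / δ) ^ 5) / (N * Real.sqrt N))) := by gcongr
    _ = _ := by simp only [cCls]; ring

lemma diff_eq {q x : ℝ} (h0 : 0 < q) (hx : x ≠ 0) {N a R : ℕ}
    (ha : a + 1 ≤ N) (t : List Bool) (hR : (R : ℤ) = (N : ℤ) - mper t) :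
    (traceProb q (insS a (N - a)) t - traceProb q (insS (a + 1) (N - (a + 1))) t)
        * nb x (t.length + 1) R
      = q * traceProb q (altS N) t * hSum x N a t := by
  rw [tp_insS, tp_insS, Nat.add_sub_cancel' (by omega : a ≤ N), Nat.add_sub_cancel' ha,
    add_sub_add_left_eq_sub, ← mul_sub, ← Finset.sum_sub_distrib, hSum, Finset.mul_sum,
    Finset.mul_sum, Finset.sum_mul]
  refine Finset.sum_congr rfl fun i hi => ?_
  rw [Finset.mem_range] at hi
  unfold zTerm
  by_cases h : t[i]? = some true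
  swap
  · simp [h]
  rw [if_pos h, if_pos h, if_pos h]
  split_ifs with hb
  all_goals
    obtain ⟨hlt, hget⟩ := List.getElem?_eq_some_iff.1 h
    have hsplit : t = t.take i ++ true :: t.drop (i + 1) := by
      conv_lhs => rw [← List.take_append_drop i t, List.drop_eq_getElem_cons hlt, hget]
    have hm := mper_split (t.take i) (t.drop (i + 1))
    rw [← hsplit, ← bef] at hm
    have hB : bef t i ≤ 1 := by unfold bef; split_ifs <;> omega
    have key : ∀ a', a' ≤ N →
        (1 - q) * (traceProb q (altS a') (t.take i)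
            * traceProb q (altS (N - a')) (t.drop (i + 1))) * nb x (t.length + 1) R
          = q * traceProb q (altS N) t * ((x : ℝ) ^ ((bef t i : ℤ) - 1) * pairW x N a' t i) := by
      intro a' ha'
      have el : (t.take i).length + 1 = i + 1 := by
        rw [List.length_take, min_eq_left hlt.le]
      have er : (t.drop (i + 1)).length + 1 = t.length - i := by
        rw [List.length_drop]; omega
      rw [tp_alt h0.ne', tp_alt h0.ne', tp_alt h0.ne', el, er, ← hR]
      have hr2 : ((N - a' : ℕ) : ℤ) - mper (t.drop (i + 1))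
          = (N : ℤ) - a' - mper (t.drop (i + 1)) := by omega
      rw [hr2]
      simp only [pairW, nb]
      set r1 : ℤ := (a' : ℤ) - mper (t.take i)
      set r2 : ℤ := (N : ℤ) - a' - mper (t.drop (i + 1))
      set m := (t.drop (i + 1)).length
      have hl1 : (t.take i).length = i := by omega
      have hl : t.length = i + 1 + m := by omega
      rw [hl1, show t.length - i = m + 1 by omega, hl]
      have e : x ^ ((bef t i : ℤ) - 1) * (x ^ r1 * x ^ r2) = x ^ (R : ℤ) := by
        rw [← zpow_add₀ hx, ← zpow_add₀ hx]; congr 1; simp only [r1, r2]; omega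
      have eq2 : q ^ (2 * a') * q ^ (2 * (N - a')) = q ^ (2 * N) := by
        rw [← pow_add]; congr 1; omega
      rw [← e, ← eq2]
      set w := (1 - q) / q with hw
      rw [show (1:ℝ) - q = q * w by rw [hw]; field_simp]
      ring
    have ka := key a (by omega)
    have kb := key (a + 1) ha
  · simp only [hb, Nat.cast_one, sub_self, zpow_zero, one_mul] at ka kb
    rw [one_mul]; linear_combination ka - kb
  · rw [show bef t i = 0 by omega, Nat.cast_zero, zero_sub, zpow_neg_one] at ka kb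
    linear_combination ka - kb

/-- One term of a chi-square distance. -/
noncomputable def chiT (q : ℝ) (N a : ℕ) (t : List Bool) : ℝ :=
  (traceProb q (insS a (N - a)) t - traceProb q (insS (a + 1) (N - (a + 1))) t) ^ 2
    / (traceProb q (insS a (N - a)) t + traceProb q (insS (a + 1) (N - (a + 1))) t)

lemma good_class {q ε : ℝ} (h0 : 0 < q) (h1 : q < 1) (hε : 0 < ε) {N n d : ℕ}
    (hN : 2 / ε + 1 ≤ N) (hn : n ≤ 2 * N) (b : Bool) :
    ∑ s ∈ cls n d, (if Good ε N (dec b s) then ∑ a ∈ insI N, chiT q N a (dec b s) else 0)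
      ≤ 32 * cCls (ε / 4) / (ε / 4) ^ 2 / Real.sqrt N
          * ∑ s ∈ cls n d, if Good ε N (dec b s) then traceProb q (altS N) (dec b s) else 0 := by
  set δ := ε / 4
  have hδ : 0 < δ := by positivity
  by_cases hg : ∃ s0 ∈ cls n d, Good ε N (dec b s0)
  swap
  · push Not at hg
    rw [Finset.sum_eq_zero fun s hs => if_neg (hg s hs),
      Finset.sum_eq_zero fun s hs => if_neg (hg s hs), mul_zero]
  obtain ⟨s0, hs0, hg0⟩ := hg
  have stats : ∀ s ∈ cls n d, nD (dec b s) = d ∧ nE (dec b s) + d = n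
      ∧ mper (dec b s) + (d + if b then 0 else 1) / 2 = n + 1 ∧ (dec b s).length = n + 1 := by
    intro s hs
    rw [cls, Finset.mem_filter, mem_strings] at hs
    obtain ⟨a1, a2⟩ := nD_dec b s
    have a3 := mper_dec b s
    rw [hs.2] at a1 a2 a3
    rw [hs.1] at a2 a3
    exact ⟨a1, a2, a3, by rw [dec_length, hs.1]⟩
  obtain ⟨eD, eE, eM, eL⟩ := stats s0 hs0
  obtain ⟨gd, ge, gr⟩ := hg0
  rw [eD] at gd
  have hN1 : (1:ℝ) < N := by
    have : (0:ℝ) < 2 / ε := by positivity
    linarith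
  have hN' : 1 ≤ N := by exact_mod_cast hN1.le
  have hεN : 2 ≤ ε * N := by
    have : 2 / ε ≤ (N:ℝ) := by linarith
    rw [div_le_iff₀ hε] at this
    linarith
  have hmle : mper (dec b s0) ≤ N := by
    have : (0:ℝ) ≤ gR N (dec b s0) := by linarith
    unfold gR at this
    have : (0:ℤ) ≤ (N:ℤ) - mper (dec b s0) := by exact_mod_cast this
    omega
  set R := N - mper (dec b s0)
  have gr' : ε * N ≤ (R:ℝ) := by
    refine gr.trans (le_of_eq ?_)
    simp only [gR, R]; push_cast [Nat.cast_sub hmle]; ring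
  have good : ∀ s ∈ cls n d, Good ε N (dec b s) ∧ (R : ℤ) = (N : ℤ) - mper (dec b s)
      ∧ traceProb q (altS N) (dec b s) = traceProb q (altS N) (dec b s0) := by
    intro s hs
    obtain ⟨a1, a2, a3, a4⟩ := stats s hs
    have em : mper (dec b s) = mper (dec b s0) := by omega
    refine ⟨⟨by rwa [a1], ?_, ?_⟩, by rw [em]; omega, ?_⟩
    · rwa [show nE (dec b s) = nE (dec b s0) by omega]
    · rwa [gR, em]
    · rw [tp_alt h0.ne', tp_alt h0.ne', a4, eL, em]
  have hne : ε * N ≤ (n:ℝ) - d := by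
    have : (nE (dec b s0) : ℝ) = (n:ℝ) - d := by
      rw [eq_sub_iff_add_eq]; exact_mod_cast eE
    linarith
  set l := n + 1
  have hR1 : 1 ≤ R := by
    have : (0:ℝ) < R := by linarith
    exact_mod_cast this
  have hS : ((R + l : ℕ) : ℝ) ≤ 4 * N := by exact_mod_cast (by omega : R + l ≤ 4 * N)
  have hS0 : (0:ℝ) < (R + l : ℕ) := by exact_mod_cast (by omega : 0 < R + l)
  set x : ℝ := (R:ℝ) / (R + l : ℕ)
  have hx0 : δ ≤ x := by
    rw [le_div_iff₀ hS0]
    have := mul_le_mul_of_nonneg_left hS hδ.le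
    simp only [δ] at this ⊢
    linarith
  have hl : ε * N ≤ (l:ℝ) := by
    simp only [l]; push_cast; linarith [Nat.cast_nonneg (α := ℝ) d]
  have hx1' : 1 - x = (l:ℝ) / (R + l : ℕ) := by
    rw [one_sub_div hS0.ne']; congr 1; push_cast; ring
  have hx1 : δ ≤ 1 - x := by
    rw [hx1', le_div_iff₀ hS0]
    have := mul_le_mul_of_nonneg_left hS hδ.le
    simp only [δ] at this ⊢
    linarith
  have hxne : x ≠ 0 := by linarith
  have hnR : (n:ℝ) ≤ 2 * N := by exact_mod_cast hn
  have hd : δ * n ≤ d := by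
    have := mul_le_mul_of_nonneg_left hnR hδ.le
    simp only [δ] at this ⊢; nlinarith
  have hd' : δ * n ≤ (n:ℝ) - d := by
    have := mul_le_mul_of_nonneg_left hnR hδ.le
    simp only [δ] at this ⊢; nlinarith
  have hnl : δ * N + 2 ≤ n := by simp only [δ]; linarith
  have cb := class_bound hδ hx0 hx1 b hN' hd hd' (by omega) hnl fun s hs => (good s hs).2.1
  set nb0 := nb x (l + 1) (R : ℤ)
  have hnb : δ / (8 * Real.sqrt N) ≤ nb0 := by
    refine le_trans ?_ (nb_mode (R := R) (l := l) hR1 (by omega))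
    rw [← hx1']
    have hsq : Real.sqrt (R + l : ℕ) ≤ 2 * Real.sqrt N := by
      rw [Real.sqrt_le_left (by positivity), mul_pow, Real.sq_sqrt (Nat.cast_nonneg _)]
      linarith
    calc δ / (8 * Real.sqrt N) ≤ (1 - x) / (8 * Real.sqrt N) := by gcongr
      _ ≤ (1 - x) / (4 * Real.sqrt (R + l : ℕ)) := by
          refine div_le_div_of_nonneg_left (by linarith) (by positivity) (by linarith)
  have hsN : 0 < Real.sqrt N := Real.sqrt_pos.2 (by linarith)
  have hnb0 : 0 < nb0 := lt_of_lt_of_le (by positivity) hnb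
  set F := traceProb q (altS N) (dec b s0)
  have hF : 0 ≤ F := tp_nonneg h0.le h1.le _ _
  have hterm : ∀ s ∈ cls n d, ∀ a ∈ insI N,
      chiT q N a (dec b s) ≤ 32 * N / δ ^ 2 * F * hSum x N a (dec b s) ^ 2 := by
    intro s hs a ha
    rw [insI, Finset.mem_Ico] at ha
    obtain ⟨_, hRs, hFs⟩ := good s hs
    have e := diff_eq h0 hxne (show a + 1 ≤ N by omega) (dec b s) hRs
    rw [(stats s hs).2.2.2, hFs] at e
    set D := traceProb q (insS a (N - a)) (dec b s)
      - traceProb q (insS (a + 1) (N - (a + 1))) (dec b s)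
    set S := traceProb q (insS a (N - a)) (dec b s)
      + traceProb q (insS (a + 1) (N - (a + 1))) (dec b s)
    have low : ∀ a' ≤ N, q * F ≤ traceProb q (insS a' (N - a')) (dec b s) := by
      intro a' ha'
      rw [tp_insS, Nat.add_sub_cancel' ha', hFs]
      refine le_add_of_nonneg_right (mul_nonneg (by linarith) (Finset.sum_nonneg fun i _ => ?_))
      split_ifs
      · exact mul_nonneg (tp_nonneg h0.le h1.le _ _) (tp_nonneg h0.le h1.le _ _)
      · exact le_rfl
    have hS' : 2 * (q * F) ≤ S := by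
      have := low a (by omega); have := low (a + 1) (by omega); simp only [S]; linarith
    set H := hSum x N a (dec b s)
    change D ^ 2 / S ≤ _
    have hD : D = q * F * H / nb0 := by rw [eq_div_iff hnb0.ne']; exact e
    rcases eq_or_lt_of_le hF with h | h
    · rw [hD, ← h]; simp
    have hqF : 0 < q * F := mul_pos h0 h
    calc D ^ 2 / S ≤ D ^ 2 / (2 * (q * F)) :=
          div_le_div_of_nonneg_left (sq_nonneg _) (by positivity) hS'
      _ = q * (F * H ^ 2) / 2 * (1 / nb0) ^ 2 := by rw [hD]; field_simp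
      _ ≤ 1 * (F * H ^ 2) / 2 * (8 * Real.sqrt N / δ) ^ 2 := by
          have h8 : 1 / nb0 ≤ 8 * Real.sqrt N / δ := by
            rw [one_div_le hnb0 (by positivity), one_div_div]; exact hnb
          gcongr
      _ = _ := by
          rw [div_pow, mul_pow, Real.sq_sqrt (Nat.cast_nonneg _)]; ring
  rw [Finset.sum_congr rfl fun s hs => if_pos (good s hs).1,
    Finset.sum_congr rfl fun s hs => (if_pos (good s hs).1).trans (good s hs).2.2]
  calc ∑ s ∈ cls n d, ∑ a ∈ insI N, chiT q N a (dec b s)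
      ≤ ∑ s ∈ cls n d, ∑ a ∈ insI N, 32 * N / δ ^ 2 * F * hSum x N a (dec b s) ^ 2 :=
        Finset.sum_le_sum fun s hs => Finset.sum_le_sum fun a ha => hterm s hs a ha
    _ = 32 * N / δ ^ 2 * F * ∑ s ∈ cls n d, ∑ a ∈ insI N, hSum x N a (dec b s) ^ 2 := by
        simp only [Finset.mul_sum]
    _ ≤ 32 * N / δ ^ 2 * F * (cCls δ * n.choose d / (N * Real.sqrt N)) :=
        mul_le_mul_of_nonneg_left cb (by positivity)
    _ = _ := by
        rw [Finset.sum_const, nsmul_eq_mul, cls, card_class]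
        field_simp

/-- Some neighbouring pair is close. -/
lemma close_pair {q : ℝ} (h0 : 0 < q) (h1 : q < 1) :
    ∃ C : ℝ, ∃ N0 : ℕ, 0 < C ∧ ∀ N ≥ N0, ∃ x y : List Bool, x.length = 2 * N + 1 ∧
      y.length = 2 * N + 1 ∧ x ≠ y ∧
      ∑ t ∈ traces (2 * N + 1), (traceProb q x t - traceProb q y t) ^ 2
          / (traceProb q x t + traceProb q y t) ≤ C / (N * Real.sqrt N) := by
  obtain ⟨ε, Cb, γ, hε, -, hγ, hCb, bad⟩ := bad_small h0 h1
  set K := 32 * cCls (ε / 4) / (ε / 4) ^ 2
  set Cbad := 2 * Cb * (2 / γ ^ 2)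
  refine ⟨8 * (max K 0 + Cbad) + 1, max 16 ⌈2 / ε + 1⌉₊, by positivity, fun N hN => ?_⟩
  have hN16 : 16 ≤ N := le_trans (le_max_left _ _) hN
  have hNε : 2 / ε + 1 ≤ (N:ℝ) :=
    (Nat.le_ceil _).trans (by exact_mod_cast le_trans (le_max_right _ _) hN)
  have hN0 : (0:ℝ) < N := by exact_mod_cast (by omega : 0 < N)
  have hN1 : (1:ℝ) ≤ N := by exact_mod_cast (by omega : 1 ≤ N)
  have hsN : 0 < Real.sqrt N := Real.sqrt_pos.2 hN0
  have nn := fun x t => tp_nonneg (q := q) h0.le h1.le x t
  have good : ∑ t ∈ traces (2 * N + 1), (if Good ε N t then ∑ a ∈ insI N, chiT q N a t else 0)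
      ≤ max K 0 / Real.sqrt N := by
    have hsum : ∀ l ∈ range (2 * N + 1 + 1),
        ∑ t ∈ strings l, (if Good ε N t then ∑ a ∈ insI N, chiT q N a t else 0)
          ≤ max K 0 / Real.sqrt N * ∑ t ∈ strings l, traceProb q (altS N) t := by
      intro l hl
      rw [Finset.mem_range] at hl
      have hnn : 0 ≤ ∑ t ∈ strings l, traceProb q (altS N) t := Finset.sum_nonneg fun t _ => nn _ _
      cases l with
      | zero =>
        rw [Finset.sum_eq_zero]
        · positivity
        · intro t ht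
          rw [mem_strings, List.length_eq_zero_iff] at ht
          subst ht
          rw [if_neg]
          rintro ⟨hD, -, -⟩
          simp only [nD, Nat.cast_zero] at hD
          nlinarith
      | succ n =>
        rw [sum_strings_dec, sum_strings_dec, mul_add]
        have one : ∀ b, ∑ s ∈ strings n,
              (if Good ε N (dec b s) then ∑ a ∈ insI N, chiT q N a (dec b s) else 0)
            ≤ max K 0 / Real.sqrt N * ∑ s ∈ strings n, traceProb q (altS N) (dec b s) := by
          intro b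
          have hmap : ∀ s ∈ strings n, cnt s ∈ range (n + 1) := fun s hs =>
            Finset.mem_range.2 (by have := cnt_le s; rw [mem_strings.1 hs] at this; omega)
          rw [← Finset.sum_fiberwise_of_maps_to hmap, ← Finset.sum_fiberwise_of_maps_to hmap,
            Finset.mul_sum]
          refine Finset.sum_le_sum fun d _ => ?_
          refine (good_class h0 h1 hε hNε (by omega) b).trans ?_
          refine mul_le_mul (div_le_div_of_nonneg_right (le_max_left _ _) hsN.le) ?_
            (Finset.sum_nonneg fun s _ => by split_ifs <;> first | exact nn _ _ | exact le_rfl)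
            (by positivity)
          exact Finset.sum_le_sum fun s _ => by
            split_ifs <;> first | exact le_rfl | exact nn _ _
        exact add_le_add (one true) (one false)
    rw [sum_traces]
    refine (Finset.sum_le_sum hsum).trans (le_of_eq ?_)
    rw [← Finset.mul_sum, ← sum_traces,
      sum_traces_tp (altS N) _ (by rw [altS_length]; omega), mul_one]
  have badb : ∀ a ∈ insI N, ∑ t ∈ traces (2 * N + 1), (if Good ε N t then 0 else chiT q N a t)
      ≤ 2 * Cb * Real.exp (-γ * N) := by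
    intro a ha
    rw [insI, Finset.mem_Ico] at ha
    have b1 := bad a (N - a)
    have b2 := bad (a + 1) (N - (a + 1))
    rw [Nat.add_sub_cancel' (by omega : a ≤ N)] at b1
    rw [Nat.add_sub_cancel' (by omega : a + 1 ≤ N)] at b2
    calc _ ≤ ∑ t ∈ (traces (2 * N + 1)).filter (fun t => ¬ Good ε N t),
          (traceProb q (insS a (N - a)) t + traceProb q (insS (a + 1) (N - (a + 1))) t) := by
          rw [Finset.sum_filter]
          refine Finset.sum_le_sum fun t _ => ?_
          by_cases hg : Good ε N t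
          · rw [if_pos hg, if_neg (not_not.2 hg)]
          · rw [if_neg hg, if_pos hg, chiT]
            set u := traceProb q (insS a (N - a)) t
            set v := traceProb q (insS (a + 1) (N - (a + 1))) t
            have hu : 0 ≤ u := nn _ _
            have hv : 0 ≤ v := nn _ _
            refine div_le_of_le_mul₀ (by positivity) (by positivity) ?_
            nlinarith [mul_nonneg hu hv]
      _ ≤ _ := by rw [Finset.sum_add_distrib]; linarith
  have total : ∑ a ∈ insI N, ∑ t ∈ traces (2 * N + 1), chiT q N a t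
      ≤ (max K 0 + Cbad) / Real.sqrt N := by
    have e : ∀ a t, chiT q N a t
        = (if Good ε N t then chiT q N a t else 0) + (if Good ε N t then 0 else chiT q N a t) :=
      fun a t => by split_ifs <;> simp
    rw [Finset.sum_congr rfl fun a _ => Finset.sum_congr rfl fun t _ => e a t]
    simp_rw [Finset.sum_add_distrib, add_div]
    refine add_le_add ?_ ?_
    · rw [Finset.sum_comm]
      refine le_trans (le_of_eq (Finset.sum_congr rfl fun t _ => ?_)) good
      split_ifs <;> simp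
    · refine (Finset.sum_le_card_nsmul _ _ _ badb).trans ?_
      rw [nsmul_eq_mul]
      have hcard : ((insI N).card : ℝ) ≤ N := by
        rw [insI, Nat.card_Ico]; exact_mod_cast (by omega : N / 2 - (N / 4 + 1) ≤ N)
      have h2 := Real.pow_div_factorial_le_exp (γ * N) (by positivity) 2
      simp only [Nat.factorial_two, Nat.cast_ofNat] at h2
      have h3 : (N:ℝ) ^ 2 * Real.exp (-γ * N) ≤ 2 / γ ^ 2 := by
        rw [neg_mul, Real.exp_neg, ← div_eq_mul_inv, div_le_div_iff₀ (Real.exp_pos _) (by positivity)]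
        rw [div_le_iff₀ two_pos] at h2
        linarith
      have hs : Real.sqrt N ≤ N := by rw [Real.sqrt_le_left hN0.le]; nlinarith
      rw [le_div_iff₀ hsN]
      calc ((insI N).card : ℝ) * (2 * Cb * Real.exp (-γ * N)) * Real.sqrt N
          ≤ (N:ℝ) * (2 * Cb * Real.exp (-γ * N)) * N := by gcongr
        _ = 2 * Cb * ((N:ℝ) ^ 2 * Real.exp (-γ * N)) := by ring
        _ ≤ Cbad := mul_le_mul_of_nonneg_left h3 (by positivity)
  have hcard8 : (N:ℝ) ≤ 8 * ((insI N).card : ℝ) := by
    rw [insI, Nat.card_Ico]; exact_mod_cast (by omega : N ≤ 8 * (N / 2 - (N / 4 + 1)))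
  obtain ⟨a, ha, hle⟩ := Finset.exists_le_of_sum_le (s := insI N)
    (g := fun _ => 8 * (max K 0 + Cbad) / (N * Real.sqrt N)) (Finset.card_pos.1 (by
      have : (0:ℝ) < (insI N).card := by linarith
      exact_mod_cast this)) (by
    refine total.trans ?_
    rw [Finset.sum_const, nsmul_eq_mul, mul_div_assoc', div_le_div_iff₀ hsN (by positivity)]
    have hnn : 0 ≤ (max K 0 + Cbad) * Real.sqrt N := by positivity
    calc (max K 0 + Cbad) * (N * Real.sqrt N) = N * ((max K 0 + Cbad) * Real.sqrt N) := by ring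
      _ ≤ 8 * ((insI N).card : ℝ) * ((max K 0 + Cbad) * Real.sqrt N) :=
          mul_le_mul_of_nonneg_right hcard8 hnn
      _ = _ := by ring)
  rw [insI, Finset.mem_Ico] at ha
  refine ⟨insS a (N - a), insS (a + 1) (N - (a + 1)), by rw [insS_length]; omega,
    by rw [insS_length]; omega, ?_, hle.trans ?_⟩
  · intro h
    rw [insS, insS, altS_add, List.append_assoc] at h
    simpa [altS] using List.append_cancel_left h
  · exact div_le_div_of_nonneg_right (by linarith) (by positivity)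

end Vale.Agent.P321
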