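import Vale.Agent.P321.Kernel

/-! The bulk part of the comparison, inside one class of traces. -/

namespace Vale.Agent.P321

open Finset MeasureTheory Filter

attribute [local fun_prop] continuous_ee

set_option linter.unusedSimpArgs false

/-- `1` when the bit before position `i` of `t` is `0`. -/
def bef (t : List Bool) (i : ℕ) : ℕ := if (t.take i).getLast? = some false then 1 else 0

/-- Weight of an insertion position when `a` periods precede it. -/
noncomputable def pairW (x : ℝ) (N a : ℕ) (t : List Bool) (i : ℕ) : ℝ :=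
  nb x (i + 1) ((a : ℤ) - mper (t.take i))
    * nb x (t.length - i) ((N : ℤ) - a - mper (t.drop (i + 1)))

/-- Contribution of position `i` to the difference of the two laws. -/
noncomputable def zTerm (x : ℝ) (N a : ℕ) (t : List Bool) (i : ℕ) : ℝ :=
  if t[i]? = some true then
    (if bef t i = 1 then 1 else x⁻¹) * (pairW x N a t i - pairW x N (a + 1) t i) else 0

/-- Fourier kernel of position `j + 1`. -/
noncomputable def kTerm (x : ℝ) (Lt R : ℕ) (b : Bool) (s : List Bool) (θ ω : ℝ) (j : ℕ) : ℂ :=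
  if (dec b s)[j + 1]? = some true then
    ((if bef (dec b s) (j + 1) = 1 then 1 else x⁻¹ : ℝ) : ℂ)
      * ee ((mper ((dec b s).take (j + 1)) : ℝ) * θ)
      * ee (-((R : ℝ) + 1 - bef (dec b s) (j + 1)) * ω)
      * (gphi x Lt (θ + ω) ^ (j + 2) * gphi x Lt ω ^ (s.length - j))
  else 0

/-- Step functions for the previous change. -/
noncomputable def vch (x : ℝ) (sg : Bool) (θ ω : ℝ) (b : Bool) : ℂ :=
  if b then (if sg then 1 else -1) * (x : ℂ) * (ee (θ / 2) * ee ω) else 1

lemma norm_vch {x : ℝ} (h0 : 0 ≤ x) (h1 : x ≤ 1) (sg : Bool) (θ ω : ℝ) (b : Bool) :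
    ‖vch x sg θ ω b‖ ≤ 1 := by
  cases sg <;> cases b <;> simp [vch, norm_ee, abs_of_nonneg h0, h1]

lemma bef_dec (b : Bool) (s : List Bool) (j : ℕ) :
    bef (dec b s) (j + 1) = if xor b (par (s.take j)) = false then 1 else 0 := by
  rw [bef, dec_take, dec_getLast]
  simp

/-- The kernel as a combination of the two characters. -/
lemma kTerm_eq {x : ℝ} (hx : x ≠ 0) (Lt R : ℕ) (b : Bool) (s : List Bool) (θ ω : ℝ) (j : ℕ)
    (hj : j < s.length) :
    kTerm x Lt R b s θ ω j
      = ((2 * x : ℝ) : ℂ)⁻¹ * ee ((1 - (if b then 0 else 1 : ℝ) / 2) * θ) * ee (-((R : ℝ) + 1) * ω)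
        * (gphi x Lt (θ + ω) ^ (j + 2) * gphi x Lt ω ^ (s.length - j))
        * (wprod (wch true θ) (s.take j) * vch x true θ ω (s.getD j false)
          + (if b then 1 else -1) *
              (wprod (wch false θ) (s.take j) * vch x false θ ω (s.getD j false))) := by
  have hlen : (s.take j).length = j := by simp; omega
  have htake : s.take (j + 1) = s.take j ++ [s.getD j false] := by
    rw [List.take_add_one]
    simp [List.getD, List.getElem?_eq_getElem hj]
  have hm := mper_dec b (s.take j)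
  rw [hlen, ← dec_take] at hm
  rw [kTerm, dec_getElem b s (j + 1) (by omega), bef_dec, htake, wprod_wch, wprod_wch, hlen,
    par_eq (s.take j ++ _), cnt_append, par_eq (s.take j)]
  set c := cnt (s.take j)
  set m := mper ((dec b s).take (j + 1))
  set E : ℕ := if b then 0 else 1 with hE
  have hEr : (if b then 0 else 1 : ℝ) = E := by cases b <;> simp [hE]
  have hexp : ∀ B : ℕ, 2 * m + c + E = 2 * (j + 1) + B →
      ee ((m : ℝ) * θ) = ee ((1 - (E : ℝ) / 2) * θ) * ee (((j : ℝ) - (c : ℝ) / 2) * θ)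
        * ee ((B : ℝ) * (θ / 2)) := by
    intro B hB
    have hB' : (2 : ℝ) * m + c + E = 2 * ((j : ℝ) + 1) + B := by exact_mod_cast hB
    rw [← ee_add, ← ee_add]
    congr 1
    linear_combination (θ / 2) * hB'
  rw [hEr]
  set P := gphi x Lt (θ + ω) ^ (j + 2) * gphi x Lt ω ^ (s.length - j)
  set U := ee (((j : ℝ) - (c : ℝ) / 2) * θ)
  set S := ee ((1 - (E : ℝ) / 2) * θ)
  cases hs : s.getD j false
  · rcases Nat.even_or_odd' c with ⟨k, hk | hk⟩
    · cases b
      · simp [cnt, vch, hk, hE, Nat.add_mod]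
      · have h1 := hexp 0 (by simp [hE, hk] at hm ⊢; omega)
        simp only [Nat.cast_zero, zero_mul, ee_zero, mul_one] at h1
        simp [cnt, vch, hk, hE, Nat.add_mod, h1]
        field_simp; ring
    · cases b
      · have h1 := hexp 0 (by simp [hE, hk] at hm ⊢; omega)
        simp only [Nat.cast_zero, zero_mul, ee_zero, mul_one] at h1
        simp [cnt, vch, hk, hE, Nat.add_mod, pow_succ, pow_mul, h1]
        field_simp; ring
      · simp [cnt, vch, hk, hE, Nat.add_mod, pow_succ, pow_mul]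
  · rcases Nat.even_or_odd' c with ⟨k, hk | hk⟩
    · cases b
      · have h1 := hexp 1 (by simp [hE, hk] at hm ⊢; omega)
        have h2 : ee (-((R : ℝ) * ω)) = ee (-((R : ℝ) * ω) - ω) * ee ω := by
          rw [← ee_add]; ring_nf
        simp only [Nat.cast_one, one_mul] at h1
        simp [cnt, vch, hk, hE, Nat.add_mod, h1]
        ring_nf
        rw [h2]
        field_simp
        try (rw [mul_div_assoc, div_self (Complex.ofReal_ne_zero.2 hx), mul_one])
      · simp [cnt, vch, hk, hE, Nat.add_mod]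
    · cases b
      · simp [cnt, vch, hk, hE, Nat.add_mod, pow_succ, pow_mul]
      · have h1 := hexp 1 (by simp [hE, hk] at hm ⊢; omega)
        have h2 : ee (-((R : ℝ) * ω)) = ee (-((R : ℝ) * ω) - ω) * ee ω := by
          rw [← ee_add]; ring_nf
        simp only [Nat.cast_one, one_mul] at h1
        simp [cnt, vch, hk, hE, Nat.add_mod, pow_succ, pow_mul, h1]
        ring_nf
        rw [h2]
        field_simp
        try (rw [mul_div_assoc, div_self (Complex.ofReal_ne_zero.2 hx), mul_one])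

lemma pairW_integral {x : ℝ} (hx : x ≠ 0) {N Lt a R : ℕ} (hLt : N ≤ Lt) (ha : a ≤ N)
    (t : List Bool) (i : ℕ) (hi : t[i]? = some true) (hR : (R : ℤ) = (N : ℤ) - mper t) :
    (((2 * Real.pi) ^ 2 * pairW x N a t i : ℝ) : ℂ)
      = ∫ θ, ee (-((a : ℝ) - mper (t.take i)) * θ) * ∫ ω,
          gphi x Lt (θ + ω) ^ (i + 1) * gphi x Lt ω ^ (t.length - i)
            * ee (-((R : ℝ) + 1 - bef t i) * ω) ∂per ∂per := by
  obtain ⟨hlt, hget⟩ := List.getElem?_eq_some_iff.1 hi
  have hsplit : t = t.take i ++ true :: t.drop (i + 1) := by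
    conv_lhs => rw [← List.take_append_drop i t, List.drop_eq_getElem_cons hlt, hget]
  have hm := mper_split (t.take i) (t.drop (i + 1))
  rw [← hsplit, ← bef] at hm
  set r1 : ℤ := (a : ℤ) - mper (t.take i)
  set r2 : ℤ := (N : ℤ) - a - mper (t.drop (i + 1))
  have e : r1 + r2 = (R : ℤ) + 1 - bef t i := by simp [r1, r2]; omega
  have h := coeff_two hx Lt (i + 1) (t.length - i) (r1 := r1) (r2 := r2)
    (by simp [r1]; omega) (by simp [r2]; omega)
  have e' : ((r1 + r2 : ℤ) : ℝ) = (R : ℝ) + 1 - bef t i := by rw [e]; push_cast; ring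
  rw [e'] at h
  have e1 : (r1 : ℝ) = (a : ℝ) - mper (t.take i) := by simp [r1]
  rw [e1] at h
  rw [h]
  simp only [pairW, r1, r2]
  push_cast; ring

lemma continuous_kTerm (x : ℝ) (Lt R : ℕ) (b : Bool) (s : List Bool) (j : ℕ) :
    Continuous (Function.uncurry fun θ ω => kTerm x Lt R b s θ ω j) := by
  have := continuous_gphi x Lt
  simp only [kTerm, Function.uncurry]
  split_ifs <;> fun_prop

lemma continuous_kTerm_snd (x : ℝ) (Lt R : ℕ) (b : Bool) (s : List Bool) (θ : ℝ) (j : ℕ) :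
    Continuous fun ω => kTerm x Lt R b s θ ω j := by
  have := continuous_gphi x Lt
  unfold kTerm
  split_ifs <;> fun_prop

/-- The transform of the bulk part of the comparison. -/
noncomputable def gMid (x : ℝ) (Lt R : ℕ) (b : Bool) (s : List Bool) (A : Finset ℕ) (θ : ℝ) : ℂ :=
  (1 - ee (-θ)) * ∫ ω, ∑ j ∈ A, kTerm x Lt R b s θ ω j ∂per

lemma continuous_gMid (x : ℝ) (Lt R : ℕ) (b : Bool) (s : List Bool) (A : Finset ℕ) :
    Continuous (gMid x Lt R b s A) := by
  refine (continuous_const.sub (continuous_ee.comp continuous_neg)).mul ?_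
  simp_rw [integral_per]
  refine intervalIntegral.continuous_parametric_intervalIntegral_of_continuous'
    (f := fun θ ω => ∑ j ∈ A, kTerm x Lt R b s θ ω j) ?_ _ _
  exact continuous_finsetSum _ fun j _ => continuous_kTerm x Lt R b s j

lemma mid_term {x : ℝ} (hx : x ≠ 0) {N Lt a R : ℕ} (hLt : N ≤ Lt) (ha : a + 1 ≤ N) (b : Bool)
    (s : List Bool) (hR : (R : ℤ) = (N : ℤ) - mper (dec b s)) (j : ℕ) :
    (((2 * Real.pi) ^ 2 * zTerm x N a (dec b s) (j + 1) : ℝ) : ℂ)
      = ∫ θ, (1 - ee (-θ)) * (∫ ω, kTerm x Lt R b s θ ω j ∂per) * ee (-(a : ℝ) * θ) ∂per := by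
  by_cases h : (dec b s)[j + 1]? = some true
  swap
  · simp [zTerm, kTerm, h]
  set t := dec b s
  set c : ℝ := if bef t (j + 1) = 1 then 1 else x⁻¹
  have I : ∀ a', (a' : ℕ) ≤ N → (((2 * Real.pi) ^ 2 * pairW x N a' t (j + 1) : ℝ) : ℂ)
      = ∫ θ, ee (-(a' : ℝ) * θ) * (ee ((mper (t.take (j + 1)) : ℝ) * θ) * ∫ ω,
        gphi x Lt (θ + ω) ^ (j + 2) * gphi x Lt ω ^ (s.length - j)
          * ee (-((R : ℝ) + 1 - bef t (j + 1)) * ω) ∂per) ∂per := by
    intro a' ha'
    rw [pairW_integral hx hLt ha' t (j + 1) h hR]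
    refine integral_congr_ae (Eventually.of_forall fun θ => ?_)
    simp only [t, dec_length, Nat.add_sub_add_right, Nat.add_assoc]
    rw [← mul_assoc, ← ee_add]
    congr 2; ring
  have hc : Continuous fun θ => (ee ((mper (t.take (j + 1)) : ℝ) * θ) * ∫ ω,
        gphi x Lt (θ + ω) ^ (j + 2) * gphi x Lt ω ^ (s.length - j)
          * ee (-((R : ℝ) + 1 - bef t (j + 1)) * ω) ∂per) := by
    refine (continuous_ee.comp (by fun_prop)).mul ?_
    simp_rw [integral_per]
    refine intervalIntegral.continuous_parametric_intervalIntegral_of_continuous' ?_ _ _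
    have := continuous_gphi x Lt
    unfold Function.uncurry
    fun_prop
  have : (((2 * Real.pi) ^ 2 * zTerm x N a t (j + 1) : ℝ) : ℂ)
      = (c : ℂ) * ((((2 * Real.pi) ^ 2 * pairW x N a t (j + 1) : ℝ) : ℂ)
        - (((2 * Real.pi) ^ 2 * pairW x N (a + 1) t (j + 1) : ℝ) : ℂ)) := by
    simp only [zTerm, h, if_true, c]
    push_cast; ring
  rw [this, I a (by omega), I (a + 1) ha, ← integral_sub (integrable_per (by fun_prop))
    (integrable_per (by fun_prop)), ← integral_const_mul]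
  refine integral_congr_ae (Eventually.of_forall fun θ => ?_)
  simp only [kTerm, t, if_pos h]
  rw [show (-((a + 1 : ℕ) : ℝ)) * θ = -(a : ℝ) * θ + -θ by push_cast; ring, ee_add]
  have e : ∀ ω, (c : ℂ) * ee ((mper ((dec b s).take (j + 1)) : ℝ) * θ)
      * ee (-((R : ℝ) + 1 - bef (dec b s) (j + 1)) * ω)
      * (gphi x Lt (θ + ω) ^ (j + 2) * gphi x Lt ω ^ (s.length - j))
    = ((c : ℂ) * ee ((mper ((dec b s).take (j + 1)) : ℝ) * θ))
      * (gphi x Lt (θ + ω) ^ (j + 2) * gphi x Lt ω ^ (s.length - j)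
          * ee (-((R : ℝ) + 1 - bef (dec b s) (j + 1)) * ω)) := fun ω => by ring
  simp only [c, t] at e ⊢
  simp_rw [e]
  rw [integral_const_mul]
  ring

lemma mid_identity {x : ℝ} (hx : x ≠ 0) {N Lt a R : ℕ} (hLt : N ≤ Lt) (ha : a + 1 ≤ N) (b : Bool)
    (s : List Bool) (hR : (R : ℤ) = (N : ℤ) - mper (dec b s)) (A : Finset ℕ) :
    (((2 * Real.pi) ^ 2 * ∑ j ∈ A, zTerm x N a (dec b s) (j + 1) : ℝ) : ℂ)
      = ∫ θ, gMid x Lt R b s A θ * ee (-(a : ℝ) * θ) ∂per := by
  rw [Finset.mul_sum, Complex.ofReal_sum, Finset.sum_congr rfl fun j _ => mid_term hx hLt ha b s hR j]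
  have ci : ∀ j, Continuous fun θ => (1 - ee (-θ)) * (∫ ω, kTerm x Lt R b s θ ω j ∂per)
      * ee (-(a : ℝ) * θ) := by
    intro j
    have := continuous_gMid x Lt R b s {j}
    unfold gMid at this
    simp only [Finset.sum_singleton] at this
    exact this.mul (continuous_ee.comp (by fun_prop))
  rw [← integral_finsetSum _ fun j _ => integrable_per (ci j)]
  refine integral_congr_ae (Eventually.of_forall fun θ => ?_)
  simp only [gMid]
  rw [integral_finsetSum A (f := fun j ω => kTerm x Lt R b s θ ω j) fun j _ =>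
    integrable_per (continuous_kTerm_snd x Lt R b s θ j), Finset.mul_sum, Finset.sum_mul]

lemma poly_exp (v : ℝ) (hv : 0 ≤ v) : (1 + v) * Real.exp (-v) ≤ 1 ∧ v ^ 2 * Real.exp (-v) ≤ 2 := by
  have h1 := Real.add_one_le_exp v
  have h2 := Real.quadratic_le_exp_of_nonneg hv
  rw [Real.exp_neg, ← div_eq_mul_inv, ← div_eq_mul_inv, div_le_one (Real.exp_pos _),
    div_le_iff₀ (Real.exp_pos _)]
  exact ⟨by linarith, by linarith⟩

/-- The character sum over a window starting at `j0`. -/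
noncomputable def winS (x : ℝ) (Lt j0 L rest : ℕ) (sg : Bool) (θ ω : ℝ) (u : List Bool) : ℂ :=
  gphi x Lt (θ + ω) ^ (j0 + 2) * gphi x Lt ω ^ (rest + 1)
    * lin (fun i => gphi x Lt (θ + ω) ^ i * gphi x Lt ω ^ (L - 1 - i)) (wch sg θ) (vch x sg θ ω) u

/-- Exponential rate of the bulk. -/
noncomputable def kap (δ ε : ℝ) : ℝ := δ ^ 3 * ε / (2 * Real.pi ^ 2)

/-- Radius where the kernel bound applies. -/
noncomputable def rad (δ : ℝ) : ℝ := δ ^ 4 / 100

/-- Constant of the window bound. -/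
noncomputable def cBlk (δ ε : ℝ) : ℝ :=
  8 / δ * (12 * (1 + 4 / δ ^ 2) ^ 4 * 4 * (1 + 3 / kap δ ε)
    + Real.pi ^ 2 * 9 * 2 / (kap δ ε * (rad δ ^ 2 / 2)) ^ 2)

lemma window_bound {x δ ε θ ω : ℝ} (hδ : 0 < δ) (hε : 0 < ε) (hx0 : δ ≤ x) (hx1 : δ ≤ 1 - x)
    (hθ : |θ| ≤ Real.pi) (hω : |ω| ≤ Real.pi) {N Lt n d j0 L : ℕ} (hLt : 1 ≤ Lt)
    (hd : δ * n ≤ d) (hd' : δ * n ≤ (n : ℝ) - d) (hj : ε * N ≤ j0) (hjL : j0 + L ≤ n)
    (hrest : ε * N ≤ (n - j0 - L : ℕ)) (hhalf : 1 ≤ n - L) (hthird : n ≤ 3 * (n - L))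
    (hn : n ≤ 3 * N) (sg : Bool) :
    θ ^ 2 * ∑ s ∈ (strings n).filter (fun s => cnt s = d),
        ‖winS x Lt j0 L (n - j0 - L) sg θ ω ((s.drop j0).take L)‖ ^ 2
      ≤ cBlk δ ε * (n.choose d : ℝ) * Real.exp (-kap δ ε * N * (θ ^ 2 + ω ^ 2)) := by
  set κ := kap δ ε
  have hκ : 0 < κ := by simp only [κ, kap]; positivity
  set rest := n - j0 - L
  have hnr : j0 + L + rest = n := by omega
  set u := θ ^ 2 + ω ^ 2
  set v := κ * N * u
  have hv : 0 ≤ v := by positivity
  set M := Real.exp (-v)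
  have hN : 1 ≤ N := by omega
  have hn0 : (0:ℝ) < n := by exact_mod_cast (by omega : 0 < n)
  set ρ : ℝ := (d : ℝ) / n
  have hρ0 : δ ≤ ρ := (le_div_iff₀ hn0).2 hd
  have hρ1 : δ ≤ 1 - ρ := by rw [one_sub_div hn0.ne', le_div_iff₀ hn0]; exact hd'
  have h0 : (0:ℝ) ≤ ρ := by linarith
  have h1 : ρ ≤ 1 := by linarith
  set f1 := gphi x Lt (θ + ω)
  set f0 := gphi x Lt ω
  have hf1 : ‖f1‖ ≤ 1 := (gphi_decay (by linarith) (by linarith) hLt _).trans
    (Real.exp_le_one_iff.2 (by
      have : 0 ≤ (1 - x) ^ 2 * x := mul_nonneg (sq_nonneg _) (by linarith)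
      nlinarith [Real.cos_le_one (θ + ω)]))
  set c := f1 ^ (j0 + 2) * f0 ^ (rest + 1)
  have dec' : ∀ e1 e0 : ℕ, j0 ≤ e1 → rest ≤ e0 → ‖f1‖ ^ e1 * ‖f0‖ ^ e0 ≤ M := by
    intro e1 e0 h1 h0
    refine (phi_decay hδ hx0 hx1 hLt hθ hω (E := ε * N) (by positivity)
      (hj.trans (by exact_mod_cast h1)) (hrest.trans (by exact_mod_cast h0))).trans (le_of_eq ?_)
    simp only [M, v, κ, kap, u]; congr 1; ring
  have hA : ∀ i < L, ‖c * (f1 ^ i * f0 ^ (L - 1 - i))‖ ≤ M := fun i hi => by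
    simp only [c, norm_mul, norm_pow]
    rw [mul_mul_mul_comm, ← pow_add, ← pow_add]
    exact dec' _ _ (by omega) (by omega)
  have he1 : ‖c‖ * ‖f1‖ ^ L ≤ M := by
    simp only [c, norm_mul, norm_pow]
    rw [mul_right_comm, ← pow_add]
    exact dec' _ _ (by omega) (by omega)
  have he0 : ‖c‖ * ‖f0‖ ^ L ≤ M := by
    simp only [c, norm_mul, norm_pow]
    rw [mul_assoc, ← pow_add]
    exact dec' _ _ (by omega) (by omega)
  set K := 4 / δ ^ 2
  have hK : 0 ≤ K := by positivity
  set Cg := 12 * (1 + K) ^ 4 * 4 * (1 + 3 / κ)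
  set Cb := Real.pi ^ 2 * 9 * 2 / (κ * (rad δ ^ 2 / 2)) ^ 2
  have hvn : ∀ b, ‖vch x sg θ ω b‖ ≤ 1 := norm_vch (by linarith) (by linarith) sg θ ω
  have core : θ ^ 2 * ∑ p ∈ strings L, wt ρ p * ‖winS x Lt j0 L rest sg θ ω p‖ ^ 2
      ≤ (Cg + Cb) * M := by
    by_cases hs : |θ| + |ω| ≤ rad δ
    · obtain ⟨hD1, hD2⟩ := kernel_bound hδ hx0 hx1 hρ0 hρ1 Lt sg (θ := θ) (ω := ω) (by
        rw [div_mul_eq_mul_div, div_le_iff₀ (by positivity)]
        simp only [rad] at hs
        rw [show δ ^ 2 * δ ^ 2 = δ ^ 4 by ring]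
        linarith)
      refine (block_bound h0 h1 (norm_wch sg θ) hvn f1 f0 c L hf1 hA he1 he0 hK hD1 hD2).trans ?_
      have hL : (L : ℝ) * θ ^ 2 ≤ 3 / κ * v := by
        have h3 : (L : ℝ) ≤ 3 * N := by exact_mod_cast (by omega : L ≤ 3 * N)
        calc (L : ℝ) * θ ^ 2 ≤ 3 * N * u :=
              mul_le_mul h3 (le_add_of_nonneg_right (sq_nonneg ω)) (sq_nonneg θ) (by positivity)
          _ = _ := by simp only [v]; field_simp
      have hg : M * (1 + L * θ ^ 2) ≤ 1 + 3 / κ := by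
        have h4 := (poly_exp v hv).1
        have : M ≤ 1 := Real.exp_le_one_iff.2 (by linarith)
        have h5 : v * M ≤ 1 := by nlinarith [Real.exp_pos (-v)]
        have h6 : (L : ℝ) * θ ^ 2 * M ≤ 3 / κ * v * M :=
          mul_le_mul_of_nonneg_right hL (Real.exp_pos _).le
        have h7 : 3 / κ * (v * M) ≤ 3 / κ * 1 := mul_le_mul_of_nonneg_left h5 (by positivity)
        linarith
      calc 12 * (1 + K) ^ 4 * (1 + (1:ℝ)) ^ 2 * M ^ 2 * (1 + L * θ ^ 2)
          = 12 * (1 + K) ^ 4 * 4 * M * (M * (1 + L * θ ^ 2)) := by ring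
        _ ≤ 12 * (1 + K) ^ 4 * 4 * M * (1 + 3 / κ) := by
            refine mul_le_mul_of_nonneg_left hg ?_
            have : 0 ≤ M := (Real.exp_pos _).le
            positivity
        _ = Cg * M := by simp only [Cg]; ring
        _ ≤ _ := mul_le_mul_of_nonneg_right (le_add_of_nonneg_right (by positivity)) (Real.exp_pos _).le
    · push Not at hs
      have hM0 : 0 ≤ M := (Real.exp_pos _).le
      have tb : ∀ p ∈ strings L, ‖winS x Lt j0 L rest sg θ ω p‖ ^ 2 ≤ ((3 * N : ℝ) * M) ^ 2 := by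
        intro p hp
        refine pow_le_pow_left₀ (norm_nonneg _) ?_ 2
        simp only [winS]
        rw [← lin_smul_left]
        refine (norm_lin_le (M := M) (V := 1) (norm_wch sg θ) hvn _ p
          (fun i hi => hA i (mem_strings.1 hp ▸ hi))).trans ?_
        rw [mem_strings.1 hp, mul_one]
        exact mul_le_mul_of_nonneg_right (by exact_mod_cast (by omega : L ≤ 3 * N)) hM0
      calc θ ^ 2 * ∑ p ∈ strings L, wt ρ p * ‖winS x Lt j0 L rest sg θ ω p‖ ^ 2
          ≤ Real.pi ^ 2 * ((3 * N : ℝ) * M) ^ 2 := by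
            refine mul_le_mul (sq_le_sq' (abs_le.1 hθ).1 (abs_le.1 hθ).2) ?_
              (Finset.sum_nonneg fun p _ => mul_nonneg (wt_nonneg h0 h1 p) (sq_nonneg _))
              (sq_nonneg _)
            refine (Finset.sum_le_sum fun p hp =>
              mul_le_mul_of_nonneg_left (tb p hp) (wt_nonneg h0 h1 p)).trans (le_of_eq ?_)
            rw [← Finset.sum_mul, sum_wt, one_mul]
        _ ≤ Cb * M := by
            have hu : rad δ ^ 2 / 2 ≤ u := by
              have hr : 0 ≤ rad δ := by unfold rad; positivity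
              have := mul_self_le_mul_self hr hs.le
              simp only [u]
              nlinarith [sq_abs θ, sq_abs ω, sq_nonneg (|θ| - |ω|)]
            set w := κ * (rad δ ^ 2 / 2)
            have hw : 0 < w := by simp only [w, rad]; positivity
            have h4 := (poly_exp v hv).2
            have hvw : (N : ℝ) ^ 2 * w ^ 2 ≤ v ^ 2 := by
              rw [← mul_pow]
              refine pow_le_pow_left₀ (by positivity) ?_ 2
              simp only [v, w]
              calc (N : ℝ) * (κ * (rad δ ^ 2 / 2)) = κ * N * (rad δ ^ 2 / 2) := by ring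
                _ ≤ _ := mul_le_mul_of_nonneg_left hu (by positivity)
            have h5 : (N : ℝ) ^ 2 * M ≤ 2 / w ^ 2 := by
              rw [le_div_iff₀ (by positivity)]
              calc (N : ℝ) ^ 2 * M * w ^ 2 = (N : ℝ) ^ 2 * w ^ 2 * M := by ring
                _ ≤ v ^ 2 * M := mul_le_mul_of_nonneg_right hvw hM0
                _ ≤ 2 := h4
            calc Real.pi ^ 2 * ((3 * N : ℝ) * M) ^ 2 = Real.pi ^ 2 * 9 * M * ((N : ℝ) ^ 2 * M) := by
                  ring
              _ ≤ Real.pi ^ 2 * 9 * M * (2 / w ^ 2) :=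
                  mul_le_mul_of_nonneg_left h5 (by positivity)
              _ = _ := by simp only [Cb, w]; ring
        _ ≤ _ := mul_le_mul_of_nonneg_right (le_add_of_nonneg_left (by positivity)) hM0
  have hav := class_avg (η := δ) hδ (a := j0) (L := L) (b := rest) (d := d)
    (by rwa [hnr]) (by rwa [hnr]) (by omega) (by omega)
    (fun p => ‖winS x Lt j0 L rest sg θ ω p‖ ^ 2) (fun p => sq_nonneg _)
  rw [hnr] at hav
  calc θ ^ 2 * _ ≤ θ ^ 2 * (8 / δ * (n.choose d : ℝ)
        * ∑ p ∈ strings L, wt ρ p * ‖winS x Lt j0 L rest sg θ ω p‖ ^ 2) :=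
        mul_le_mul_of_nonneg_left hav (sq_nonneg θ)
    _ = 8 / δ * (n.choose d : ℝ)
        * (θ ^ 2 * ∑ p ∈ strings L, wt ρ p * ‖winS x Lt j0 L rest sg θ ω p‖ ^ 2) := by ring
    _ ≤ 8 / δ * (n.choose d : ℝ) * ((Cg + Cb) * M) :=
        mul_le_mul_of_nonneg_left core (by positivity)
    _ = _ := by simp only [cBlk, Cg, Cb, M, v, u, κ, K]; ring_nf

/-- A window of the kernel. -/
lemma kTerm_window {x : ℝ} (hx : x ≠ 0) (Lt R : ℕ) (b : Bool) (s : List Bool) (θ ω : ℝ)
    (j0 L : ℕ) (h : j0 + L ≤ s.length) :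
    ∑ l ∈ range L, kTerm x Lt R b s θ ω (j0 + l)
      = ((2 * x : ℝ) : ℂ)⁻¹ * ee ((1 - (if b then 0 else 1 : ℝ) / 2) * θ) * ee (-((R : ℝ) + 1) * ω)
        * (wprod (wch true θ) (s.take j0)
            * winS x Lt j0 L (s.length - j0 - L) true θ ω ((s.drop j0).take L)
          + (if b then 1 else -1) * (wprod (wch false θ) (s.take j0)
            * winS x Lt j0 L (s.length - j0 - L) false θ ω ((s.drop j0).take L))) := by
  have hl : ((s.drop j0).take L).length = L := by simp; omega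
  simp only [winS, lin_eq_sum, hl, Finset.mul_sum, ← Finset.sum_add_distrib]
  refine Finset.sum_congr rfl fun l hl' => ?_
  rw [Finset.mem_range] at hl'
  rw [kTerm_eq hx Lt R b s θ ω (j0 + l) (by omega)]
  have ht : ((s.drop j0).take L).take l = (s.drop j0).take l := by
    rw [List.take_take, min_eq_left hl'.le]
  have hg : ((s.drop j0).take L).getD l false = s.getD (j0 + l) false := by
    simp [List.getD, List.getElem?_take, hl', List.getElem?_drop]
  rw [ht, hg, show s.take (j0 + l) = s.take j0 ++ (s.drop j0).take l from List.take_add,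
    wprod_append, wprod_append,
    show s.length - (j0 + l) = (s.length - j0 - L + 1) + (L - 1 - l) by omega, pow_add (gphi x Lt ω),
    show j0 + l + 2 = (j0 + 2) + l by omega, pow_add (gphi x Lt (θ + ω))]
  ring

end Vale.Agent.P321
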