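import Vale.Agent.P321.Defs
import Mathlib.Data.Nat.Choose.Basic
import Mathlib.Algebra.BigOperators.Intervals
import Mathlib.Data.Real.Basic
import Mathlib.Tactic.Ring
import Mathlib.Tactic.Linarith
import Mathlib.Tactic.Positivity
import Mathlib.Algebra.Order.BigOperators.Ring.Finset
import Mathlib.Tactic.FieldSimp

/-! Elementary facts on the deletion channel. -/

namespace Vale.Agent.P321

open Finset

variable {q : ℝ}

@[simp] lemma tp_nil_nil : traceProb q [] [] = 1 := rfl
@[simp] lemma tp_nil_cons (b : Bool) (t : List Bool) : traceProb q [] (b :: t) = 0 := rfl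
@[simp] lemma tp_cons_nil (a : Bool) (x : List Bool) :
    traceProb q (a :: x) [] = q * traceProb q x [] := rfl
lemma tp_cons_cons (a b : Bool) (x t : List Bool) :
    traceProb q (a :: x) (b :: t)
      = q * traceProb q x (b :: t) + if a = b then (1 - q) * traceProb q x t else 0 := rfl

lemma tp_cons (a : Bool) (x t : List Bool) :
    traceProb q (a :: x) t
      = q * traceProb q x t + if t.head? = some a then (1 - q) * traceProb q x t.tail else 0 := by
  cases t with
  | nil => simp
  | cons b t => simp [tp_cons_cons, eq_comm]

lemma tp_nonneg (h0 : 0 ≤ q) (h1 : q ≤ 1) : ∀ x t, 0 ≤ traceProb q x t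
  | [], [] => zero_le_one
  | [], _ :: _ => le_rfl
  | _ :: x, [] => mul_nonneg h0 (tp_nonneg h0 h1 x [])
  | a :: x, b :: t => by
    rw [tp_cons_cons]
    refine add_nonneg (mul_nonneg h0 (tp_nonneg h0 h1 x _)) ?_
    split_ifs
    · exact mul_nonneg (by linarith) (tp_nonneg h0 h1 x t)
    · exact le_rfl

lemma tp_eq_zero_of_length : ∀ (x t : List Bool), x.length < t.length → traceProb q x t = 0
  | [], _ :: _, _ => rfl
  | [], [], h => by simp at h
  | _ :: _, [], h => by simp at h
  | a :: x, b :: t, h => by
    simp only [List.length_cons] at h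
    rw [tp_cons_cons, tp_eq_zero_of_length x (b :: t) (by simp; omega),
      tp_eq_zero_of_length x t (by omega)]
    simp

/-- A trace of `u ++ v` is a trace of `u` followed by one of `v`. -/
lemma tp_append : ∀ (u v t : List Bool), traceProb q (u ++ v) t
    = ∑ i ∈ range (t.length + 1), traceProb q u (t.take i) * traceProb q v (t.drop i)
  | [], v, t => by
    rw [Finset.sum_eq_single 0]
    · simp
    · intro i hi hi0
      cases t with
      | nil => simp at hi; omega
      | cons b t =>
        obtain ⟨j, rfl⟩ := Nat.exists_eq_succ_of_ne_zero hi0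
        simp
    · simp
  | a :: u, v, t => by
    cases t with
    | nil => simp [tp_append u v [], mul_assoc]
    | cons b t =>
      rw [List.cons_append, tp_cons_cons, tp_append u v (b :: t), tp_append u v t,
        List.length_cons, Finset.sum_range_succ' _ (t.length + 1),
        Finset.sum_range_succ' _ (t.length + 1)]
      simp only [List.take_succ_cons, List.drop_succ_cons, List.take_zero, List.drop_zero,
        tp_cons_cons, tp_cons_nil, add_mul]
      rw [Finset.sum_add_distrib]
      split_ifs <;> simp [Finset.mul_sum, mul_add, mul_assoc] <;> ring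

lemma mem_strings : ∀ {n : ℕ} {t : List Bool}, t ∈ strings n ↔ t.length = n
  | 0, t => by simp [strings, List.length_eq_zero_iff]
  | n + 1, t => by
    cases t with
    | nil => simp [strings]
    | cons b t => cases b <;> simp [strings, mem_strings]

lemma mem_traces {n : ℕ} {t : List Bool} : t ∈ traces n ↔ t.length ≤ n := by
  simp [traces, mem_strings]

lemma sum_strings_succ {M : Type*} [AddCommMonoid M] (n : ℕ) (f : List Bool → M) :
    ∑ t ∈ strings (n + 1), f t
      = ∑ t ∈ strings n, f (true :: t) + ∑ t ∈ strings n, f (false :: t) := by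
  rw [strings, Finset.sum_union]
  · rw [Finset.sum_image (by simp), Finset.sum_image (by simp)]
  · simp [Finset.disjoint_left]

lemma sum_traces {M : Type*} [AddCommMonoid M] (n : ℕ) (f : List Bool → M) :
    ∑ t ∈ traces n, f t = ∑ l ∈ range (n + 1), ∑ t ∈ strings l, f t := by
  rw [traces, Finset.sum_biUnion]
  intro i _ j _ hij
  simp only [Function.onFun, Finset.disjoint_left, mem_strings]
  omega

lemma sum_strings_add {M : Type*} [AddCommMonoid M] : ∀ (a b : ℕ) (f : List Bool → M),
    ∑ t ∈ strings (a + b), f t = ∑ u ∈ strings a, ∑ v ∈ strings b, f (u ++ v)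
  | 0, b, f => by simp [strings]
  | a + 1, b, f => by
    rw [Nat.add_right_comm, sum_strings_succ, sum_strings_succ, sum_strings_add a b,
      sum_strings_add a b]
    rfl

lemma card_strings (n : ℕ) : (strings n).card = 2 ^ n := by
  induction n with
  | zero => rfl
  | succ n ih =>
    rw [Finset.card_eq_sum_ones, sum_strings_succ, ← Finset.card_eq_sum_ones, ih]; ring

/-- One step of the channel, under summation over traces. -/
lemma sum_traces_cons (a : Bool) (x : List Bool) (n : ℕ) (hn : x.length ≤ n) (h : List Bool → ℝ) :
    ∑ t ∈ traces (n + 1), traceProb q (a :: x) t * h t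
      = q * ∑ t ∈ traces n, traceProb q x t * h t
        + (1 - q) * ∑ t ∈ traces n, traceProb q x t * h (a :: t) := by
  simp only [tp_cons, add_mul, Finset.sum_add_distrib, Finset.mul_sum, mul_assoc]
  congr 1
  · refine (Finset.sum_subset (fun t ht => mem_traces.2 (by have := mem_traces.1 ht; omega)) ?_).symm
    intro t _ ht
    rw [mem_traces] at ht
    simp [tp_eq_zero_of_length x t (by omega)]
  · simp only [ite_mul, zero_mul]
    rw [← Finset.sum_filter]
    refine Finset.sum_nbij' List.tail (List.cons a) ?_ ?_ ?_ ?_ ?_
    · intro t ht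
      simp only [mem_filter, mem_traces] at ht ⊢
      simp; omega
    · intro t ht
      simp only [mem_filter, mem_traces] at ht ⊢
      simpa using ht
    · intro t ht
      simp only [mem_filter] at ht
      exact List.cons_head?_tail ht.2
    · intro t ht; rfl
    · intro t ht
      simp only [mem_filter] at ht
      rw [List.cons_head?_tail ht.2]; ring

lemma sum_traces_tp : ∀ (x : List Bool) (n : ℕ), x.length ≤ n →
    ∑ t ∈ traces n, traceProb q x t = 1
  | [], n, _ => by
    rw [Finset.sum_eq_single []]
    · simp
    · intro t _ ht; cases t with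
      | nil => exact absurd rfl ht
      | cons => rfl
    · simp [mem_traces]
  | a :: x, n, h => by
    obtain ⟨m, rfl⟩ : ∃ m, n = m + 1 := ⟨n - 1, by simp at h; omega⟩
    have := sum_traces_cons (q := q) a x m (by simpa using h) fun _ => 1
    simp only [mul_one] at this
    rw [this, sum_traces_tp x m (by simpa using h)]; ring

/-- A prefix bit is harmless for the chi-square distance. -/
lemma chi_cons (h0 : 0 ≤ q) (h1 : q ≤ 1) (a : Bool) {x y : List Bool} (n : ℕ)
    (hx : x.length ≤ n) (hy : y.length ≤ n) :
    ∑ t ∈ traces (n + 1), (traceProb q (a :: x) t - traceProb q (a :: y) t) ^ 2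
        / (traceProb q (a :: x) t + traceProb q (a :: y) t)
      ≤ ∑ t ∈ traces n, (traceProb q x t - traceProb q y t) ^ 2
        / (traceProb q x t + traceProb q y t) := by
  have key : ∀ u v u' v' : ℝ, 0 ≤ v → 0 ≤ v' → (v = 0 → u = 0) → (v' = 0 → u' = 0) →
      (q * u + (1 - q) * u') ^ 2 / (q * v + (1 - q) * v')
        ≤ q * (u ^ 2 / v) + (1 - q) * (u' ^ 2 / v') := by
    intro u v u' v' hv hv' hu hu'
    rcases eq_or_lt_of_le (show 0 ≤ q * v + (1 - q) * v' from
      add_nonneg (mul_nonneg h0 hv) (mul_nonneg (by linarith) hv')) with h | h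
    · rw [← h, div_zero]
      exact add_nonneg (mul_nonneg h0 (by positivity)) (mul_nonneg (by linarith) (by positivity))
    rcases eq_or_lt_of_le hv with e | e
    · obtain rfl := e.symm
      obtain rfl := hu rfl
      simp only [mul_zero, zero_add, ne_eq, OfNat.ofNat_ne_zero, not_false_eq_true, zero_pow,
        zero_div] at h ⊢
      have h3 : (1 - q) ≠ 0 := fun e => by simp [e] at h
      refine le_of_eq ?_
      field_simp
    rcases eq_or_lt_of_le hv' with e' | e'
    · obtain rfl := e'.symm
      obtain rfl := hu' rfl
      simp only [mul_zero, add_zero, ne_eq, OfNat.ofNat_ne_zero, not_false_eq_true, zero_pow,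
        zero_div] at h ⊢
      have h3 : q ≠ 0 := fun e => by simp [e] at h
      refine le_of_eq ?_
      field_simp
    rw [div_le_iff₀ h]
    have : (q * (u ^ 2 / v) + (1 - q) * (u' ^ 2 / v')) * (q * v + (1 - q) * v')
        - (q * u + (1 - q) * u') ^ 2 = q * (1 - q) * (u * v' - u' * v) ^ 2 / (v * v') := by
      field_simp; ring
    nlinarith [div_nonneg (mul_nonneg (mul_nonneg h0 (sub_nonneg.2 h1)) (sq_nonneg (u * v' - u' * v)))
      (mul_nonneg hv hv')]
  set S : List Bool → ℝ := fun t => (traceProb q x t - traceProb q y t) ^ 2
    / (traceProb q x t + traceProb q y t)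
  have hS : ∀ t, 0 ≤ S t := fun t =>
    div_nonneg (sq_nonneg _) (add_nonneg (tp_nonneg h0 h1 _ _) (tp_nonneg h0 h1 _ _))
  have hz : ∀ t : List Bool, n < t.length → S t = 0 := fun t ht => by
    simp [S, tp_eq_zero_of_length x t (by omega), tp_eq_zero_of_length y t (by omega)]
  calc ∑ t ∈ traces (n + 1), (traceProb q (a :: x) t - traceProb q (a :: y) t) ^ 2
        / (traceProb q (a :: x) t + traceProb q (a :: y) t)
      ≤ ∑ t ∈ traces (n + 1), (q * S t + if t.head? = some a then (1 - q) * S t.tail else 0) := by
        refine Finset.sum_le_sum fun t _ => ?_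
        simp only [tp_cons]
        have nn := fun x t => tp_nonneg h0 h1 (q := q) x t
        have z : ∀ t, traceProb q x t + traceProb q y t = 0 →
            traceProb q x t - traceProb q y t = 0 :=
          fun t h => by linarith [nn x t, nn y t]
        split_ifs with hh
        · refine le_trans (le_of_eq ?_) (key _ _ _ _ (add_nonneg (nn x t) (nn y t))
            (add_nonneg (nn x t.tail) (nn y t.tail)) (z t) (z t.tail))
          ring
        · refine le_trans (le_of_eq ?_) ((key (traceProb q x t - traceProb q y t) _ 0 0
            (add_nonneg (nn x t) (nn y t)) le_rfl (z t) (fun _ => rfl)).trans (le_of_eq (by simp [S])))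
          ring
    _ = q * ∑ t ∈ traces n, S t + (1 - q) * ∑ t ∈ traces n, S t := by
        rw [Finset.sum_add_distrib, ← Finset.mul_sum, Finset.mul_sum (traces n) S (1 - q)]
        congr 1
        · congr 1
          refine (Finset.sum_subset (fun t ht => mem_traces.2 (by have := mem_traces.1 ht; omega)) ?_).symm
          intro t _ ht; exact hz t (by rw [mem_traces] at ht; omega)
        · rw [← Finset.sum_filter]
          refine Finset.sum_nbij' List.tail (List.cons a) ?_ ?_ ?_ ?_ ?_
          · intro t ht
            simp only [mem_filter, mem_traces] at ht ⊢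
            simp; omega
          · intro t ht
            simp only [mem_filter, mem_traces] at ht ⊢
            simpa using ht
          · intro t ht
            simp only [mem_filter] at ht
            exact List.cons_head?_tail ht.2
          · intro t ht; rfl
          · intro t ht; rfl
    _ = _ := by ring

/-- Exponential moments of superadditive functions of the trace factorise. -/
lemma sum_traces_append (u v : List Bool) (h : List Bool → ℝ) :
    ∑ t ∈ traces (u.length + v.length), traceProb q (u ++ v) t * h t
      = ∑ s ∈ traces u.length, traceProb q u s *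
          ∑ r ∈ traces v.length, traceProb q v r * h (s ++ r) := by
  induction u generalizing h with
  | nil => simp [traces, strings]
  | cons a u ih =>
    rw [List.length_cons, Nat.add_right_comm, List.cons_append,
      sum_traces_cons a (u ++ v) _ (by simp), ih h, ih (fun t => h (a :: t)),
      sum_traces_cons a u _ le_rfl]
    simp only [List.cons_append]

end Vale.Agent.P321
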