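import Vale.Agent.P321.Trace
import Mathlib.Analysis.Real.Sqrt
import Mathlib.Algebra.BigOperators.Field
import Mathlib.Algebra.Order.BigOperators.Ring.Finset
import Mathlib.Algebra.BigOperators.Ring.Finset
import Mathlib.Tactic.Linarith

/-! Two-point lower bound for the number of traces. -/

namespace Vale.Agent.P321

open Finset

lemma sqrt_gap {P Q : ℝ} (hP : 0 ≤ P) (hQ : 0 ≤ Q) :
    (P + Q) / 2 - (P - Q) ^ 2 / (P + Q) / 2 ≤ Real.sqrt (P * Q) := by
  rcases eq_or_lt_of_le (add_nonneg hP hQ) with h | h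
  · obtain rfl : P = 0 := by linarith
    obtain rfl : Q = 0 := by linarith
    simp
  rw [div_div, sub_le_iff_le_add, div_le_iff₀ two_pos,
    show (Real.sqrt (P * Q) + (P - Q) ^ 2 / ((P + Q) * 2)) * 2
      = 2 * Real.sqrt (P * Q) + (P - Q) ^ 2 / (P + Q) by field_simp]
  rw [← sub_le_iff_le_add', le_div_iff₀ h, Real.sqrt_mul hP]
  set a := Real.sqrt P
  set b := Real.sqrt Q
  have ha : a * a = P := Real.mul_self_sqrt hP
  have hb : b * b = Q := Real.mul_self_sqrt hQ
  rw [← ha, ← hb]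
  nlinarith [mul_nonneg (sq_nonneg (a - b)) (mul_nonneg (Real.sqrt_nonneg P) (Real.sqrt_nonneg Q))]

/-- An estimator that tells two strings apart needs many traces. -/
lemma two_point {q : ℝ} (h0 : 0 ≤ q) (h1 : q ≤ 1) {n m : ℕ}
    (est : (Fin m → List Bool) → (Fin n → Bool) → ℝ) (he : ∀ T y, 0 ≤ est T y)
    (hs : ∀ T, ∑ y, est T y = 1)
    (hc : ∀ x : Fin n → Bool, 2 / 3 ≤ ∑ T ∈ Fintype.piFinset (fun _ : Fin m => traces n),
      (∏ i, traceProb q (List.ofFn x) (T i)) * est T x)
    {x y : Fin n → Bool} (hxy : x ≠ y) {h : ℝ}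
    (hh : ∑ t ∈ traces n, (traceProb q (List.ofFn x) t - traceProb q (List.ofFn y) t) ^ 2
      / (traceProb q (List.ofFn x) t + traceProb q (List.ofFn y) t) ≤ h) :
    1 / 9 ≤ m * h := by
  set Ω := Fintype.piFinset (fun _ : Fin m => traces n)
  set P := fun t => traceProb q (List.ofFn x) t
  set Q := fun t => traceProb q (List.ofFn y) t
  have hP : ∀ t, 0 ≤ P t := tp_nonneg h0 h1 _
  have hQ : ∀ t, 0 ≤ Q t := tp_nonneg h0 h1 _
  set U := fun T : Fin m → List Bool => ∏ i, P (T i)
  set V := fun T : Fin m → List Bool => ∏ i, Q (T i)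
  have hU : ∀ T, 0 ≤ U T := fun T => prod_nonneg fun i _ => hP _
  have hV : ∀ T, 0 ≤ V T := fun T => prod_nonneg fun i _ => hQ _
  have tot : ∀ f : List Bool → ℝ, ∑ T ∈ Ω, ∏ i, f (T i) = (∑ t ∈ traces n, f t) ^ m := by
    intro f
    rw [← Finset.prod_univ_sum (fun _ : Fin m => traces n) (fun _ => f), prod_const, card_univ,
      Fintype.card_fin]
  have sU : ∑ T ∈ Ω, U T = 1 := by rw [tot P, sum_traces_tp _ _ (by simp), one_pow]
  have sV : ∑ T ∈ Ω, V T = 1 := by rw [tot Q, sum_traces_tp _ _ (by simp), one_pow]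
  have smax : 4 / 3 ≤ ∑ T ∈ Ω, max (U T) (V T) := by
    calc (4:ℝ) / 3 ≤ ∑ T ∈ Ω, (U T * est T x + V T * est T y) := by
          rw [sum_add_distrib]; linarith [hc x, hc y]
      _ ≤ _ := by
          refine sum_le_sum fun T _ => ?_
          have hxy1 : est T x + est T y ≤ 1 := by
            rw [← hs T, ← sum_pair hxy]
            exact sum_le_sum_of_subset_of_nonneg (subset_univ _) fun z _ _ => he T z
          have a1 := mul_le_mul_of_nonneg_right (le_max_left (U T) (V T)) (he T x)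
          have a2 := mul_le_mul_of_nonneg_right (le_max_right (U T) (V T)) (he T y)
          have a3 := mul_le_mul_of_nonneg_left hxy1 ((hU T).trans (le_max_left (U T) (V T)))
          linarith
  have ssum : ∑ T ∈ Ω, min (U T) (V T) + ∑ T ∈ Ω, max (U T) (V T) = 2 := by
    simp_rw [← sum_add_distrib, min_add_max]
    rw [sum_add_distrib, sU, sV]; norm_num
  set A := ∑ t ∈ traces n, Real.sqrt (P t * Q t)
  have hA0 : 0 ≤ A := sum_nonneg fun t _ => Real.sqrt_nonneg _
  have key : (A ^ m) ^ 2 ≤ 8 / 9 := by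
    rw [← tot fun t => Real.sqrt (P t * Q t)]
    refine (sum_sq_le_sum_mul_sum_of_sq_le_mul Ω (fun T _ => le_min (hU T) (hV T))
      (fun T _ => (hU T).trans (le_max_left (U T) (V T))) (fun T _ => ?_)).trans ?_
    · refine le_of_eq ?_
      rw [min_mul_max, ← prod_pow]
      simp only [U, V, ← prod_mul_distrib]
      exact prod_congr rfl fun i _ => Real.sq_sqrt (mul_nonneg (hP _) (hQ _))
    · have := sum_nonneg (s := Ω) fun T _ => le_min (hU T) (hV T)
      nlinarith
  have hA : 1 - h / 2 ≤ A := by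
    calc 1 - h / 2 ≤ ∑ t ∈ traces n, ((P t + Q t) / 2 - (P t - Q t) ^ 2 / (P t + Q t) / 2) := by
          rw [sum_sub_distrib, ← sum_div, ← sum_div, sum_add_distrib,
            sum_traces_tp _ _ (by simp), sum_traces_tp _ _ (by simp)]
          simp only [P, Q]
          linarith
      _ ≤ A := sum_le_sum fun t _ => sqrt_gap (hP t) (hQ t)
  rcases le_or_gt h 2 with h2 | h2
  · have hb := one_add_mul_le_pow (show (-2:ℝ) ≤ -(h / 2) by linarith) (2 * m)
    have hp := pow_le_pow_left₀ (show (0:ℝ) ≤ 1 + -(h / 2) by linarith)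
      (show 1 + -(h / 2) ≤ A by linarith) (2 * m)
    rw [show A ^ (2 * m) = (A ^ m) ^ 2 by rw [← pow_mul, mul_comm]] at hp
    push_cast at hb
    linarith
  · rcases Nat.eq_zero_or_pos m with rfl | hm
    · norm_num at key
    · have : (1:ℝ) ≤ m := by exact_mod_cast hm
      nlinarith

end Vale.Agent.P321
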